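import Vale.Agent.P167.H685.LD.Ea

/-!
# P167, general `q`, block Q-LAM, [LD]: the event `Ext` (deterministic part)

`fw_iff`: on `Ea` and if a path of the colour `e` around the junction is joined to the boundary site
`q c3`, a strand separates the junction from the base iff it separates `q c3` from the base.
`Ea_far`: if the path is joined to a far site, `Ea` for the small radius implies `Ea` for the large one.
-/

namespace Vale.Agent.P167.H685.LD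

open Finset Relation Vale.Agent.P145.FB
open Vale.Agent.P167 Vale.Agent.P167.BR Vale.Agent.P167.FK
open Vale.Agent.P167.E6 (IsPolygon Encloses face)
open Vale.Agent.P167.H632 (cs pr)
open Vale.Agent.P167.H718 (IsXY)
open Vale.Agent.P167.QX (lo hi exists_xy lo_xy hi_xy)
open Vale.Agent.P167.H318 (st)
open Vale.Agent.P167.H704.Q (bk bk_par)
open Vale.Agent.P167.FKA (Cor)

variable {n k : ℕ} {q : ZMod n → ℤ × ℤ} {D : Finset (ℤ × ℤ)} {R ρ r r' : ℤ} {ω : Cfg} {A : Finset Ed}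
  {e : Bool} {c1 c2 c3 : ℕ}

section

variable (hq : IsPolygon q) (hD : Encloses q D)
include hq hD

/-- **A strand around the junction below `γ` contradicts `Ea`.** -/
theorem no_small (hW : JW q D k R) (hρ : 0 ≤ ρ) (h1 : ρ ≤ r) (_h0 : 1 ≤ r) (h2 : r + 2 ≤ R)
    (hpar : ((q (k : ZMod n)).1 + (q (k : ZMod n)).2) % 2 = pr e)
    (hω : ω ∈ Ea e D (q (k : ZMod n)) r)
    (a1 : (k : ℤ) - ρ ≤ c1) (a2 : (c2 : ℤ) ≤ k + ρ)
    (hp : PConn (cs e ω ∩ ↑(D ∩ Bq (q (k : ZMod n)) ρ)) Set.univ (q (c1 : ZMod n))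
      (q (c2 : ZMod n)))
    (hpc : ((q (c1 : ZMod n)).1 + (q (c1 : ZMod n)).2) % 2 = pr e)
    (hA : A ∈ pcs ω D) (hl : ¬ IsLp D A) (b1 : c1 ≤ lo q A) (b2 : hi q A < c2)
    (b3 : lo q A < k) (b4 : k ≤ hi q A) : False := by
  have hlt := hW.lt
  have hgt := hW.gt
  obtain ⟨x, y, hxy⟩ := exists_xy hq hD hA hl
  have elo := lo_xy hq hD hA hxy
  have ehi := hi_xy hq hD hA hxy
  refine noFw_of_Ea hq hD hW h2 hpar hω hA hl (fun g hg => ?_) ⟨b3, b4⟩
  rw [elo] at b1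
  rw [ehi] at b2
  by_cases hgD : hdv g ∈ D
  · exact Bq_mono h1 (confine hq hD hW hρ (by omega) a1 a2 hp hpc hA hxy
      (b1.trans (min_le_left _ _)) (lt_of_le_of_lt (le_max_left _ _) b2) g hg hgD)
  · obtain ⟨-, -, -, b4⟩ := be_odd hq hD hxy.2.2.2.2.2
    have h5 := exit_unique hA hg hxy.2.2.2.1 hgD b4
    have h8 : c1 ≤ y := b1.trans (min_le_right _ _)
    have h9 : y < c2 := lt_of_le_of_lt (le_max_right _ _) b2
    rw [h5]
    obtain ⟨h6, h7⟩ := hW.side' hq (j := y) (by omega) (by omega)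
    rw [mem_Bq, h6]
    omega

/-- **On `Ea`, if a path of the colour `e` around the junction is joined to the boundary site `q c3`,
then a strand separates the junction from the base iff it separates `q c3` from the base.** -/
theorem fw_iff (hW : JW q D k R) (hρ : 0 ≤ ρ) (h1 : ρ ≤ r) (h0 : 1 ≤ r) (h2 : r + 2 ≤ R)
    (hpar : ((q (k : ZMod n)).1 + (q (k : ZMod n)).2) % 2 = pr e)
    (hω : ω ∈ Ea e D (q (k : ZMod n)) r)
    (a1 : (k : ℤ) - ρ ≤ c1) (a3 : c1 < k) (a4 : k ≤ c2) (a2 : (c2 : ℤ) ≤ k + ρ) (h3 : c3 ≤ n)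
    (hp : PConn (cs e ω ∩ ↑(D ∩ Bq (q (k : ZMod n)) ρ)) Set.univ (q (c1 : ZMod n))
      (q (c2 : ZMod n)))
    (hp3 : PConn (cs e ω ∩ ↑D) Set.univ (q (c1 : ZMod n)) (q (c3 : ZMod n)))
    (hpc : ((q (c1 : ZMod n)).1 + (q (c1 : ZMod n)).2) % 2 = pr e)
    (hA : A ∈ pcs ω D) (hl : ¬ IsLp D A) :
    (lo q A < k ∧ k ≤ hi q A) ↔ (lo q A < c3 ∧ c3 ≤ hi q A) := by
  have hlt := hW.lt
  have hgt := hW.gt
  obtain ⟨x, y, hxy⟩ := exists_xy hq hD hA hl
  obtain ⟨u, hu⟩ := BR.exists_pot hq hD hA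
  have p := fun {m : ℕ} (hm : m ≤ n) => H718.pot_bd hq hD hA hxy hu hm
  have ea := p (m := c1) (by omega)
  have eb := p (m := c2) (by omega)
  have ec := p (m := c3) h3
  have e12 := pot_path hA hu (hp.mono (Set.inter_subset_inter_right _ (by
    intro v hv
    exact (Finset.mem_inter.1 (Finset.mem_coe.1 hv)).1)) subset_rfl) hpc
  have e13 := pot_path hA hu hp3 hpc
  have hne := hxy.ne
  have key := no_small hq hD hW hρ h1 h0 h2 hpar hω a1 a2 hp hpc hA hl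
  rw [lo_xy hq hD hA hxy, hi_xy hq hD hA hxy] at *
  have hI : (min x y < c1 ∧ c1 ≤ max x y ↔ min x y < c2 ∧ c2 ≤ max x y) ∧
      (min x y < c1 ∧ c1 ≤ max x y ↔ min x y < c3 ∧ c3 ≤ max x y) := by
    constructor <;> split_ifs at ea eb ec <;> omega
  constructor
  · intro h4
    rw [← hI.2]
    by_contra hcon
    exact key (by omega) (by omega) h4.1 h4.2
  · intro h4
    have h5 := hI.2.2 h4
    have h6 := hI.1.1 h5
    omega

/-- a path around the junction of the colour `!e` forces a strand around the junction -/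
theorem exists_fw {m1 m2 : ℕ} (h1 : m1 < k) (h2 : k < m2) (h3 : m2 ≤ n)
    (hpar : ((q (k : ZMod n)).1 + (q (k : ZMod n)).2) % 2 = pr e)
    (hst : PConn (cs (!e) ω ∩ ↑D) Set.univ (q (m1 : ZMod n)) (q (m2 : ZMod n)))
    (hsp : ((q (m1 : ZMod n)).1 + (q (m1 : ZMod n)).2) % 2 = pr (!e)) :
    ∃ A ∈ pcs ω D, ¬ IsLp D A ∧ m1 ≤ lo q A ∧ lo q A < k ∧ k ≤ hi q A ∧ hi q A < m2 := by
  classical
  have hprf : pr e + pr (!e) = 1 := by cases e <;> decide
  have hp0 : pr e = 0 ∨ pr e = 1 := by cases e <;> decide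
  have hex : ∀ A : Finset Ed, ∃ u : ℤ × ℤ → ℤ, A ∈ pcs ω D → PotD D A u := by
    intro A
    by_cases hA : A ∈ pcs ω D
    · obtain ⟨u, hu⟩ := BR.exists_pot hq hD hA
      exact ⟨u, fun _ => hu⟩
    · exact ⟨fun _ => 0, fun h => absurd h hA⟩
  choose U hU using hex
  have hU' : ∀ A ∈ pcs ω D, PotD D A (U A) := fun A hA => hU A hA
  obtain ⟨A, hA, hAne⟩ : ∃ A ∈ pcs ω D, U A (q (m1 : ZMod n)) ≠ U A (q (k : ZMod n)) := by
    by_contra hcon
    push Not at hcon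
    have s1 := sum_bd hq hD hU' m1
    have s2 := sum_bd hq hD hU' k
    have s3 : ∑ A ∈ pcs ω D, U A (q (m1 : ZMod n)) = ∑ A ∈ pcs ω D, U A (q (k : ZMod n)) :=
      sum_congr rfl hcon
    simp only [Int.even_iff] at s1 s2
    split_ifs at s1 s2 <;> omega
  have hu := hU' A hA
  have hl : ¬ IsLp D A := by
    intro hl
    have h3 : ∀ z : ℕ, be q (z : ZMod n) ∉ A := by
      intro z hz
      rcases be_bd hq hD (z : ZMod n) with ⟨_, h4⟩ | ⟨_, h4⟩
      · exact h4 (hl.tl hA hz)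
      · exact h4 (hl _ hz)
    exact hAne (pot_arc hq hD hu (i := m1) (j := k) (by omega) fun m _ _ => h3 m).symm
  obtain ⟨x, y, hxy⟩ := exists_xy hq hD hA hl
  have p := fun {m : ℕ} (hm : m ≤ n) => H718.pot_bd hq hD hA hxy hu hm
  have ea := p (m := m1) (by omega)
  have eb := p (m := k) (by omega)
  have ec := p (m := m2) h3
  have ed := pot_path hA hu hst hsp
  have hxyne := hxy.ne
  have hloc : (m1 ≤ x ∧ x < k ∧ k ≤ y ∧ y < m2) ∨ (m1 ≤ y ∧ y < k ∧ k ≤ x ∧ x < m2) := by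
    split_ifs at ea eb ec <;> omega
  refine ⟨A, hA, hl, ?_⟩
  rw [lo_xy hq hD hA hxy, hi_xy hq hD hA hxy]
  omega

omit hq hD in
/-- the first exit of a path from a box -/
theorem exit_box {G : Set (ℤ × ℤ)} {a s z : ℤ × ℤ} (h : PConn G Set.univ s z)
    (hs : (a.1 - r ≤ s.1 ∧ s.1 ≤ a.1 + r) ∧ a.2 - r ≤ s.2 ∧ s.2 ≤ a.2 + r)
    (hz : ¬ ((a.1 - r ≤ z.1 ∧ z.1 ≤ a.1 + r) ∧ a.2 - r ≤ z.2 ∧ z.2 ≤ a.2 + r)) :
    ∃ s' v : ℤ × ℤ, PConn (G ∩ ↑(Bq a r)) Set.univ s s' ∧ v ∈ G ∧ v ∈ Bq a (r + 1) ∧ v ∉ Bq a r ∧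
      Cor v s' := by
  obtain ⟨-, h⟩ := h
  have key : (∃ s' v : ℤ × ℤ, PConn (G ∩ ↑(Bq a r)) Set.univ s s' ∧ v ∈ G ∧ v ∈ Bq a (r + 1) ∧
      v ∉ Bq a r ∧ Cor v s') ∨ (PConn (G ∩ ↑(Bq a r)) Set.univ s z ∧
      ((a.1 - r ≤ z.1 ∧ z.1 ≤ a.1 + r) ∧ a.2 - r ≤ z.2 ∧ z.2 ≤ a.2 + r)) := by
    clear hz
    induction h with
    | refl => exact Or.inr ⟨PConn.refl (Set.mem_univ _), hs⟩
    | @tail b c _ hbc ih =>
      rcases ih with ih | ⟨ih1, ih2⟩
      · exact Or.inl ih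
      · obtain ⟨⟨g1, g2, g3⟩, -⟩ := hbc
        by_cases hv : ((min b.1 c.1, min b.2 c.2) : ℤ × ℤ) ∈ Bq a r
        · right
          refine ⟨ih1.tail ⟨g1, g2, g3, hv⟩ (Set.mem_univ _), ?_⟩
          rw [mem_Bq] at hv
          dsimp only at hv
          omega
        · left
          refine ⟨b, _, ih1, g3, ?_, hv, ?_⟩
          · rw [mem_Bq]
            dsimp only
            omega
          · exact ⟨by dsimp only; omega, by dsimp only; omega⟩
  rcases key with key | key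
  · exact key
  · exact absurd key.2 hz

/-- a path around the junction in a box and a path from below it to a far site: impossible -/
theorem no_far (hW : JW q D k R) (h1 : 0 ≤ r) (h2 : r + 1 ≤ R) {m1 m2 : ℕ}
    (a1 : (k : ℤ) - r ≤ m1) (a2 : m1 < c1) (a3 : c1 < m2) (a4 : (m2 : ℤ) ≤ k + r)
    (hst : PConn (cs (!e) ω ∩ ↑(D ∩ Bq (q (k : ZMod n)) r)) Set.univ (q (m1 : ZMod n))
      (q (m2 : ZMod n)))
    (hsp : ((q (m1 : ZMod n)).1 + (q (m1 : ZMod n)).2) % 2 = pr (!e)) {z : ℤ × ℤ}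
    (hpz : PConn (cs e ω ∩ ↑D) Set.univ (q (c1 : ZMod n)) z)
    (hpc : ((q (c1 : ZMod n)).1 + (q (c1 : ZMod n)).2) % 2 = pr e)
    (hz : (q (k : ZMod n)).1 + r < z.1 ∨ z.1 < (q (k : ZMod n)).1 - r ∨
      (q (k : ZMod n)).2 + r < z.2) : False := by
  classical
  have hlt := hW.lt
  have hgt := hW.gt
  have ec1 := hW.idx c1 (by omega) (by omega)
  obtain ⟨s', v, g1, g2, g3, g4, g5⟩ := exit_box (r := r) (a := q (k : ZMod n)) hpz
    ⟨⟨by rw [ec1]; dsimp only; omega, by rw [ec1]; dsimp only; omega⟩, by rw [ec1]; dsimp only; omega,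
      by rw [ec1]; dsimp only; omega⟩ (by omega)
  have hnm : ∀ w ∈ Bq (q (k : ZMod n)) (r + 1), nm (w - q (k : ZMod n)) ≤ R := by
    intro w hw
    rw [mem_Bq] at hw
    rw [nm_le]
    simp only [Prod.fst_sub, Prod.snd_sub]
    omega
  set ω' : Cfg := fun v => if v ∈ Bq (q (k : ZMod n)) r then ω v else e with hω'
  have hcs : ∀ c : Bool, cs c ω ∩ ↑(D ∩ Bq (q (k : ZMod n)) r) ⊆ cs c ω' ∩ (↑D : Set (ℤ × ℤ)) := by
    rintro c v ⟨hv, hv'⟩
    have hv'' := Finset.mem_inter.1 (Finset.mem_coe.1 hv')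
    refine ⟨?_, hv''.1⟩
    show ω' v = c
    rw [hω']
    simp only [if_pos hv''.2]
    exact hv
  obtain ⟨t', t1, t2, t3⟩ := ring (G := cs e ω' ∩ (↑D : Set (ℤ × ℤ))) h1 (fun w hw hw' hw2 => by
    refine ⟨?_, (hW.dom w (hnm w hw)).2 hw2⟩
    show ω' w = e
    rw [hω']
    simp only [if_neg hw']) g3 g4 ((hW.dom _ (hnm _ g3)).1 g2.2) g5.1 g5.2
  have hpt : PConn (cs e ω' ∩ (↑D : Set (ℤ × ℤ))) Set.univ (q (c1 : ZMod n)) t' := by
    refine (g1.mono ?_ subset_rfl).trans t3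
    rintro w ⟨⟨hw1, hw2⟩, hw3⟩
    exact hcs e ⟨hw1, Finset.mem_coe.2 (Finset.mem_inter.2 ⟨hw2, hw3⟩)⟩
  have hst' := hst.mono (hcs (!e)) subset_rfl
  obtain ⟨m3, d1, d2, d3⟩ := hW.site (t := t') t1 (by rw [abs_le]; omega)
  rw [← d2] at hpt
  have hm3p : ((q (m3 : ZMod n)).1 + (q (m3 : ZMod n)).2) % 2 = pr e := by
    have := hpt.parity
    omega
  have hm2p : ((q (m2 : ZMod n)).1 + (q (m2 : ZMod n)).2) % 2 = pr (!e) := by
    have := hst.parity
    omega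
  have hprf : pr e + pr (!e) = 1 := by cases e <;> decide
  have n3 : m3 ≠ m1 := by
    rintro rfl
    omega
  have n4 : m3 ≠ m2 := by
    rintro rfl
    omega
  clear hm3p hm2p hprf g1 g2 g3 g4 g5 hz ec1
  rcases t2 with t2 | t2
  · have e1 : m3 < m1 := by omega
    exact interlace hq hD (a := m3) (b := m1) (c := c1) (d := m2) e1 a2 a3
      (by omega) hpt.symm (by have := hpt.parity; omega) hst' hsp
  · have e1 : m2 < m3 := by omega
    refine interlace hq hD (e := !e) (a := m1) (b := c1) (c := m2) (d := m3) a2 a3 e1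
      (by omega) hst' hsp ?_ ?_
    · rw [Bool.not_not]
      exact hpt
    · rw [Bool.not_not]
      exact hpc

/-- **Radial comparison**: if `γ` is joined to a far site, `Ea` for the radius of `γ` implies `Ea` for
the large radius. -/
theorem Ea_far (hW : JW q D k R) (hρ : 0 ≤ ρ) (h1 : ρ ≤ r') (h0 : 1 ≤ r') (h2 : r' + 2 ≤ R)
    (h2' : r' ≤ r) (h2'' : r + 1 ≤ R)
    (hpar : ((q (k : ZMod n)).1 + (q (k : ZMod n)).2) % 2 = pr e)
    (hω : ω ∈ Ea e D (q (k : ZMod n)) r')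
    (a1 : (k : ℤ) - ρ ≤ c1) (a3 : c1 < k) (a4 : k ≤ c2) (a2 : (c2 : ℤ) ≤ k + ρ)
    (hp : PConn (cs e ω ∩ ↑(D ∩ Bq (q (k : ZMod n)) ρ)) Set.univ (q (c1 : ZMod n))
      (q (c2 : ZMod n))) {z : ℤ × ℤ}
    (hpz : PConn (cs e ω ∩ ↑D) Set.univ (q (c1 : ZMod n)) z)
    (hpc : ((q (c1 : ZMod n)).1 + (q (c1 : ZMod n)).2) % 2 = pr e)
    (hz : (q (k : ZMod n)).1 + r < z.1 ∨ z.1 < (q (k : ZMod n)).1 - r ∨
      (q (k : ZMod n)).2 + r < z.2) :
    ω ∈ Ea e D (q (k : ZMod n)) r := by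
  classical
  intro s t hs1 hs2 ht1 ht2 hsp hst
  have hlt := hW.lt
  have hgt := hW.gt
  have hprf : pr e + pr (!e) = 1 := by cases e <;> decide
  have hp0 : pr e = 0 ∨ pr e = 1 := by cases e <;> decide
  have hne : s ≠ t := by
    rintro rfl
    omega
  obtain ⟨v1, hv1, k1⟩ := end_cor hst hne
  obtain ⟨v2, hv2, k2⟩ := end_cor hst.symm hne.symm
  have b1 := mem_Bq.1 (Finset.mem_inter.1 (Finset.mem_coe.1 hv1.2)).2
  have b2 := mem_Bq.1 (Finset.mem_inter.1 (Finset.mem_coe.1 hv2.2)).2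
  obtain ⟨k11, k12⟩ := k1
  obtain ⟨k21, k22⟩ := k2
  obtain ⟨m1, e1, e2, e3⟩ := hW.site hs1 (by rw [abs_le]; omega)
  obtain ⟨m2, f1, f2, f3⟩ := hW.site ht1 (by rw [abs_le]; omega)
  have l1 : (k : ℤ) - r ≤ m1 := by omega
  have l2 : (m2 : ℤ) ≤ k + r := by omega
  have l3 : m1 < k := by omega
  have l4 : k < m2 := by omega
  clear b1 b2 k11 k12 k21 k22 hv1 hv2 hs2 ht2 e1 f1
  rw [← e2, ← f2] at hst
  rw [← e2] at hsp
  have hD' : ∀ {G : Set (ℤ × ℤ)} {r : ℤ}, (G ∩ ↑(D ∩ Bq (q (k : ZMod n)) r) : Set (ℤ × ℤ)) ⊆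
      G ∩ ↑D := by
    rintro G r v ⟨hv, hv'⟩
    exact ⟨hv, Finset.mem_coe.2 (Finset.mem_inter.1 (Finset.mem_coe.1 hv')).1⟩
  have hstD := hst.mono hD' subset_rfl
  have hpD := hp.mono hD' subset_rfl
  -- parities
  have hc2p : ((q (c2 : ZMod n)).1 + (q (c2 : ZMod n)).2) % 2 = pr e := by
    have := hp.parity
    omega
  have hm2p : ((q (m2 : ZMod n)).1 + (q (m2 : ZMod n)).2) % 2 = pr (!e) := by
    have := hst.parity
    omega
  have n1 : m1 ≠ c1 := by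
    rintro rfl
    omega
  have n2 : m2 ≠ c2 := by
    rintro rfl
    omega
  -- the path goes around `γ`
  have hm1 : m1 < c1 := by
    by_contra hcon
    have hcon' : c1 < m1 := by omega
    rcases Nat.lt_or_ge m2 c2 with h3 | h3
    · obtain ⟨A, hA, hl, g1, g2, g3, g4⟩ := exists_fw hq hD (m1 := m1) (m2 := m2) l3
        l4 (by omega) hpar hstD hsp
      exact no_small hq hD hW hρ h1 h0 h2 hpar hω a1 a2 hp hpc hA hl (by omega) (by omega) g2 g3
    · exact interlace hq hD (a := c1) (b := m1) (c := c2) (d := m2) hcon' (by omega) (by omega)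
        (by omega) hpD hpc hstD hsp
  exact no_far hq hD hW (by omega) h2'' l1 hm1 (by omega) l2 hst hsp hpz hpc hz

end

end Vale.Agent.P167.H685.LD
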