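import Vale.Agent.P167.H685.LD.Strip

/-!
# P167, general `q`, block Q-LAM, [LD]: probability of the arcs in a strip

`strip_ge`: uniform lower bound; `fkg_cond`: positive association given the squares off a set.
-/

namespace Vale.Agent.P167.H685.LD

open Finset Relation Vale.Agent.P145.FB Vale.Agent.P153 Vale.Agent.P153.Topo
open Vale.Agent.P167 Vale.Agent.P167.FK Vale.Agent.P167.FKA
open Vale.Agent.P167.H632 (cs pr IncC)
open Vale.Agent.P167.H259 (f_markov)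
open Vale.Agent.P167.H192 (TA.dq TA.dF TA.mem_dF TA.Pw)
open Vale.Agent.P167.H192.Q (SRSW)
open Vale.Agent.P167.H192.ArcQ (ArcE inc_ArcE)
open Vale.Agent.P167.H704 (Vc inc_Vc)
open Vale.Agent.P167.H704.Q (cst good_cst rs_fk prC_inter prC_mono)

variable {Q : ℝ} {ω : Cfg} {e : Bool} {a : ℤ × ℤ} {r R w p q H : ℤ} {A C D : Finset (ℤ × ℤ)}
  {η : Cfg} {E E' : Set Cfg}

/-- an arc around `a` in the half annulus which is joined in the strip to the level `H` -/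
def SE (e : Bool) (a : ℤ × ℤ) (r R H : ℤ) : Set Cfg :=
  {ω | ∃ s t z : ℤ × ℤ, s.2 = a.2 ∧ t.2 = a.2 ∧ a.1 - R ≤ s.1 ∧ s.1 ≤ a.1 - r ∧ a.1 + r ≤ t.1 ∧
    t.1 ≤ a.1 + R ∧ (s.1 + s.2) % 2 = pr e ∧ PConn (cs e ω ∩ TA.dq a r R) Set.univ s t ∧
    z.2 = H ∧ a.1 - R ≤ z.1 ∧ z.1 ≤ a.1 + R ∧ PConn (cs e ω ∩ Cl a R a.2 H) Set.univ s z}

theorem inc_SE (e : Bool) (a : ℤ × ℤ) (r R H : ℤ) : IncC e (SE e a r R H) := by
  rintro o o' ho ⟨s, t, z, h1, h2, h3, h4, h5, h6, h7, h8, h9, h10, h11, h12⟩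
  exact ⟨s, t, z, h1, h2, h3, h4, h5, h6, h7,
    h8.mono (Set.inter_subset_inter_left _ fun v hv => ho v hv) subset_rfl, h9, h10, h11,
    h12.mono (Set.inter_subset_inter_left _ fun v hv => ho v hv) subset_rfl⟩

/-- the worst boundary condition -/
theorem prC_sub (hQ : 1 ≤ Q) (hω : Good ω) (hCA : C ⊆ A) (hE : IncC e E) :
    FK.Pr Q C (cst (!e)) E ≤ FK.Pr Q A ω E := by
  have hQ0 : 0 < Q := by linarith
  have h1 : FK.Pr Q A ω E = Ex Q A ω (fun ω' => FK.Pr Q C ω' E) := f_markov Q C A ω _ hQ0 hCA hω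
  rw [h1, ← Ex_const (Q := Q) (D := A) (η := ω) hQ0 (FK.Pr Q C (cst (!e)) E)]
  refine Ex_mono hQ0 fun S _ => prC_mono hQ (good_cst _) (f_good.1 _ _ _ hω) (fun v _ hv => ?_) hE
  exfalso
  have hv' : (!e) = e := hv
  cases e <;> simp at hv'

/-- **Positive association given the squares off `A`.** -/
theorem fkg_cond (hQ : 1 ≤ Q) (hη : Good η) (hA : A ⊆ D) {c : ℝ} {F : Cfg → ℝ}
    (hF : Ind A F) (hF0 : ∀ ω, 0 ≤ F ω) (hE : IncC e E) (hE' : IncC e E')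
    (h : ∀ ω, Good ω → (∀ v, v ∉ D → ω v = η v) → c ≤ FK.Pr Q A ω E') :
    c * Ex Q D η (fun ω => F ω * E.indicator 1 ω) ≤
      Ex Q D η (fun ω => F ω * (E ∩ E').indicator 1 ω) := by
  have hQ0 : 0 < Q := by linarith
  have m1 := markov f_markov (F := E.indicator 1) hQ0 hA hη hF
  have m2 := markov f_markov (F := (E ∩ E').indicator 1) hQ0 hA hη hF
  rw [m1, m2, ← Ex_mul_left]
  refine Ex_mono hQ0 fun S _ => ?_
  have hg : Good (cf D η S) := f_good.1 D η S hη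
  have h1 := h (cf D η S) hg fun v hv => cf_out hv
  have h2 := prC_inter (D := A) hQ hg hE hE'
  have h3 : 0 ≤ FK.Pr Q A (cf D η S) E := Pr_nonneg hQ0 _
  have h4 : c * FK.Pr Q A (cf D η S) E ≤ FK.Pr Q A (cf D η S) (E ∩ E') := by nlinarith
  have h5 := hF0 (cf D η S)
  show c * (F (cf D η S) * FK.Pr Q A (cf D η S) E) ≤ F (cf D η S) * FK.Pr Q A (cf D η S) (E ∩ E')
  nlinarith

/-- **The arcs in a strip have positive probability, uniformly in the state outside.** -/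
theorem strip_ge (hQ : 1 ≤ Q) (h : RSW Q) (hS : SRSW Q) : ∃ Λ : ℤ, 2 ≤ Λ ∧ ∀ K : ℕ,
    ∃ (c : ℝ) (r0 : ℤ), 0 < c ∧ ∀ (e : Bool) (a : ℤ × ℤ) (H r : ℤ) (A : Finset (ℤ × ℤ)) (ω : Cfg),
      Good ω → r0 ≤ r → a.2 + (Λ + 1) * r < H → H - a.2 ≤ K * r →
      (∀ v : ℤ × ℤ, a.1 - Λ * r ≤ v.1 → v.1 < a.1 + Λ * r → a.2 ≤ v.2 → v.2 < H → v ∈ A) →
      c ≤ FK.Pr Q A ω (SE e a r (Λ * r) H) := by
  have hQ0 : 0 < Q := by linarith
  obtain ⟨Λ, c0, hΛ, hc0, h0⟩ := arcT_ge hQ hS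
  refine ⟨Λ, hΛ, fun K => ?_⟩
  obtain ⟨c1, s0, hc1, -, hs0, h1⟩ := rs_fk hQ h (2 * K)
  refine ⟨c0 * (c1 * c0), s0 + 4, by positivity, fun e a H r A ω hω hr hH hK hst => ?_⟩
  obtain ⟨w, hw⟩ : ∃ w, w = r / 2 := ⟨_, rfl⟩
  have w1 : 2 * w ≤ r := by omega
  have w2 : r ≤ 2 * w + 1 := by omega
  have hr1 : 1 ≤ r := by omega
  obtain ⟨R, hR⟩ : ∃ R, R = Λ * r := ⟨_, rfl⟩
  have hrR : 2 * r ≤ R := by rw [hR]; nlinarith
  have hH' : a.2 + R + r < H := by rw [hR]; linarith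
  rw [← hR] at hst ⊢
  obtain ⟨g1, -⟩ := h0 e a r R hr1 hR.ge
  obtain ⟨-, g3⟩ := h0 e (a.1, H) r R hr1 hR.ge
  -- the three events
  have p1 : c0 ≤ FK.Pr Q A ω (ArcE e a r R) := by
    refine g1.trans (prC_sub hQ hω (fun v hv => ?_) (inc_ArcE _ _ _ _))
    rw [TA.mem_dF] at hv
    simp only [TA.dq, Set.mem_ofPred_eq] at hv
    exact hst v (by omega) (by omega) (by omega) (by omega)
  have p3 : c0 ≤ FK.Pr Q A ω (ArcT e (a.1, H) r R) := by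
    refine g3.trans (prC_sub hQ hω (fun v hv => ?_) (inc_ArcT _ _ _ _))
    unfold dT at hv
    obtain ⟨u, hu, rfl⟩ := Finset.mem_image.1 hv
    rw [TA.mem_dF] at hu
    simp only [TA.dq, Set.mem_ofPred_eq] at hu
    exact hst _ (by dsimp only; omega) (by dsimp only; omega) (by dsimp only; omega)
      (by dsimp only; omega)
  have p2 : c1 ≤ FK.Pr Q A ω (Vc e (a.1 - w) (a.1 + w) (a.2 + w) (H - w)) := by
    refine (h1 e (a.1 - w) (a.1 + w) (a.2 + w) (H - w) A ω hω (by omega) (by omega)).2 (by omega)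
      ?_ ?_
    · push_cast
      have hr4 : r ≤ 4 * w := by omega
      have hK0 : (0 : ℤ) ≤ K := by positivity
      nlinarith
    · intro v v1 v2 v3 v4 hv
      exact absurd (hst v (by omega) (by omega) (by omega) (by omega)) hv
  have i1 := inc_ArcE e a r R
  have i2 := inc_Vc e (a.1 - w) (a.1 + w) (a.2 + w) (H - w)
  have i3 := inc_ArcT e (a.1, H) r R
  have f3 : c1 * c0 ≤ FK.Pr Q A ω (Vc e (a.1 - w) (a.1 + w) (a.2 + w) (H - w) ∩
      ArcT e (a.1, H) r R) :=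
    (mul_le_mul p2 p3 hc0.le (hc1.le.trans p2)).trans (prC_inter hQ hω i2 i3)
  have f2 : c0 * (c1 * c0) ≤ FK.Pr Q A ω (ArcE e a r R ∩
      (Vc e (a.1 - w) (a.1 + w) (a.2 + w) (H - w) ∩ ArcT e (a.1, H) r R)) :=
    (mul_le_mul p1 f3 (by positivity) (hc0.le.trans p1)).trans (prC_inter hQ hω i1 (i2.inter i3))
  refine f2.trans (Pr_mono hQ0 ?_)
  rintro ω' ⟨m1, m2, m3⟩
  obtain ⟨s, t, y, z, s1, s2, s3, s4, s5, s6, s7, s8, y1, y2, y3, z1, yz, sy⟩ :=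
    strip_bot (w := w) (p := a.2 + w) (q := H - w) (by omega) (by omega) (by omega) (by omega)
      (by omega) (by omega) m1 m2
  obtain ⟨x, x1, x2, x3, x4⟩ := strip_top (H := H) (r := r) (R := R) (by omega) (by omega)
    (by omega) (by omega) (by omega) (by omega) y1 y2 y3 z1 yz m3
  refine ⟨s, t, x, s1, s2, s3, s4, s5, s6, s7, s8, x1, x2, x3, ?_⟩
  refine (sy.mono ?_ subset_rfl).trans (x4.mono ?_ subset_rfl)
  · rintro v ⟨hv, hv' | hv'⟩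
    · refine ⟨hv, ?_⟩
      simp only [TA.dq, Set.mem_ofPred_eq] at hv'
      simp only [Cl, Set.mem_ofPred_eq]
      omega
    · refine ⟨hv, ?_⟩
      simp only [Cl, Set.mem_ofPred_eq] at hv' ⊢
      omega
  · rintro v ⟨hv, hv'⟩
    refine ⟨hv, ?_⟩
    simp only [Cl, Set.mem_ofPred_eq] at hv' ⊢
    omega

end Vale.Agent.P167.H685.LD
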