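import Vale.Agent.P167.H975.LfC

/-!
# P167, general `q`, block Q-LAM, [LD]: the local factor at the junction is an indicator
-/

namespace Vale.Agent.P167.H685.LD

open Finset Relation Vale.Agent.P145.FB
open Vale.Agent.P167 Vale.Agent.P167.BR Vale.Agent.P167.FK
open Vale.Agent.P167.E6 (IsPolygon Encloses face dir)
open Vale.Agent.P167.H632 (cs pr)
open Vale.Agent.P167.H718 (IsXY IsCl Cl rc isCl_strand)
open Vale.Agent.P167.QX (lo hi exists_xy lo_xy hi_xy wB)
open Vale.Agent.P167.H601.LG (wJ GeoN Spe SepL Kt Fw near_spe feet sin_pos' sin2_pos wJ_cl wJ_ot wJ_fw2)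
open Vale.Agent.P167.H975 (TX exists_inner Ard)

variable {N k : ℕ} {q : ZMod N → ℤ × ℤ} {D : Finset (ℤ × ℤ)} {R r : ℤ} {ω : Cfg} {A : Finset Ed}
  {e : Bool} {τ : ℕ → ℤ} {θ : ℝ} {n₀ L : ℕ}

/-- the weights of the pieces near the junction -/
theorem w_jun (h0 : 0 < θ) (h1 : θ ≤ Real.pi / 3) (hG : GeoN n₀ N q τ) (hq : IsPolygon q)
    (hD : Encloses q D) (hS : SepL L N τ k) (hk0 : 0 < k) (hkN : k < N) (hfl : τ k = τ (k - 1))
    (hr : 3 * (r + 1) < n₀) (hrL : 2 * (r + 1) < L) (hA : A ∈ pcs ω D)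
    (hin : ∀ g ∈ A, hdv g ∈ Bq (q (k : ZMod N)) r) :
    (¬ IsLp D A ∧ (lo q A < k ∧ k ≤ hi q A) ∧ wJ θ ((θ - Real.pi) / 2) q D k τ A = 0) ∨
      ((IsLp D A ∨ ¬ (lo q A < k ∧ k ≤ hi q A)) ∧ wJ θ ((θ - Real.pi) / 2) q D k τ A = 1) := by
  have hsin := sin_pos' h0 h1
  have hsin2 := sin2_pos h0 h1
  have hcos : 0 < Real.cos θ := Real.cos_pos_of_mem_Ioo ⟨by linarith [Real.pi_pos], by
    linarith [Real.pi_pos]⟩
  by_cases hl : IsLp D A
  · exact Or.inr ⟨Or.inl hl, H601.LG.wJ_lp hq hD hA hl hcos.ne'⟩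
  · obtain ⟨g1, g2, g3, g4⟩ := feet hq hD hA hl
    rcases near_spe hG hq hD hA hl hS hk0 hkN (Or.inr (Or.inl rfl)) hr hrL hin with
      ⟨a1, a2, a3⟩ | ⟨a1, a2, a3⟩
    · left
      refine ⟨hl, a1, ?_⟩
      rw [wJ_fw2 rfl hl a1, a2, hfl, sub_self, Int.cast_zero, mul_zero, Real.sin_zero, zero_div]
    · right
      refine ⟨Or.inr a1, ?_⟩
      by_cases hC : IsCl D q k A
      · have := wJ_cl (θ := θ) (β := (θ - Real.pi) / 2) (τ := τ) hl g1.le a1 hC
        rw [a2, Int.cast_zero, mul_zero, sub_zero, div_self hsin2.ne'] at this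
        exact this
      · have := wJ_ot (θ := θ) (β := (θ - Real.pi) / 2) (τ := τ) hl g1.le a1 hC
        rw [a2, Int.cast_zero, mul_zero, add_zero, div_self hsin.ne'] at this
        exact this

/-- **The local factor at the junction.** -/
theorem TX_jun (h0 : 0 < θ) (h1 : θ ≤ Real.pi / 3) (hG : GeoN n₀ N q τ) (hq : IsPolygon q)
    (hD : Encloses q D) (hS : SepL L N τ k) (hfl : τ k = τ (k - 1))
    (hW : JW q D k R) (hpar : ((q (k : ZMod N)).1 + (q (k : ZMod N)).2) % 2 = pr e) (hr1 : 1 ≤ r)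
    (hrR : r + 2 ≤ R) (hr : 3 * (r + 1) < n₀) (hrL : 2 * (r + 1) < L) :
    TX (wJ θ ((θ - Real.pi) / 2) q D k τ) D (q (k : ZMod N)) r ω =
      (Ea e D (q (k : ZMod N)) r).indicator 1 ω := by
  classical
  have hlt := hW.lt
  have hgt := hW.gt
  have key := fun {A : Finset Ed} (hA : A ∈ pcs ω D) =>
    w_jun (A := A) h0 h1 hG hq hD hS (by omega) (by omega) hfl hr hrL hA
  by_cases hω : ω ∈ Ea e D (q (k : ZMod N)) r
  · rw [Set.indicator_of_mem hω, Pi.one_apply]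
    unfold TX
    refine prod_eq_one fun A hA => ?_
    rw [mem_filter] at hA
    obtain ⟨hA, hin⟩ := hA
    rcases key hA hin with ⟨hl, hF, -⟩ | ⟨-, h⟩
    · exact absurd hF (noFw_of_Ea hq hD hW hrR hpar hω hA hl hin)
    · exact h
  · rw [Set.indicator_of_notMem hω]
    obtain ⟨A, hA, hl, hin, x, y, hxy, hov⟩ := exists_inner hq hD hW hr1 (by omega) hpar hω
    unfold TX
    refine prod_eq_zero (i := A) (mem_filter.2 ⟨hA, hin⟩) ?_
    have elo := lo_xy hq hD hA hxy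
    have ehi := hi_xy hq hD hA hxy
    rcases key hA hin with ⟨-, -, h⟩ | ⟨h | h, -⟩
    · exact h
    · exact absurd h hl
    · exfalso
      apply h
      rw [elo, ehi]
      cases e
      · simp only [Bool.false_eq_true, if_false] at hov
        omega
      · simp only [if_true] at hov
        omega

end Vale.Agent.P167.H685.LD
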