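import Vale.Agent.P167.H685.LD.Zig
import Vale.Agent.P167.H318.MR

/-!
# P167, general `q`, block Q-LAM, [LD]: confinement of the strands below a path
-/

namespace Vale.Agent.P167.H685.LD

open Finset Relation Vale.Agent.P145.FB
open Vale.Agent.P167 Vale.Agent.P167.BR Vale.Agent.P167.FK
open Vale.Agent.P167.E6 (IsPolygon Encloses)
open Vale.Agent.P167.H632 (cs pr)
open Vale.Agent.P167.H718 (IsXY)
open Vale.Agent.P167.QX (lo hi exists_xy)
open Vale.Agent.P167.H318 (st)
open Vale.Agent.P167.H704.Q (bk bk_par)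
open Vale.Agent.P167.H685.Q.Det (strand_path cor_bk)
open Vale.Agent.P167.FKA (Cor)

variable {n k : ℕ} {q : ZMod n → ℤ × ℤ} {D : Finset (ℤ × ℤ)} {R ρ : ℤ} {ω : Cfg} {A : Finset Ed}
  {e g : Ed} {f : Bool} {m1 m2 x y : ℕ} {s t : ℤ × ℤ}

theorem cor_ls (g : Ed) : Cor (hdv g) (ls g) := cor_bk true g

theorem cor_rs (g : Ed) : Cor (hdv g) (rs g) := cor_bk false g

/-- a strand is a run from its entry -/
theorem run_entry (hA : A ∈ pcs ω D) (hg : g ∈ A) (hgD : tlv g ∉ D) (he : e ∈ A) :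
    ∃ K, st g ω K = e ∧ ∀ j < K, hdv (st g ω j) ∈ D := by
  obtain ⟨K, hK | hK⟩ := run_of_mem hA hg he
  · exact ⟨K, hK.1, hK.2⟩
  · rcases Nat.eq_zero_or_pos K with h0 | h0
    · subst h0
      exact ⟨0, hK.1.symm, fun j hj => absurd hj (Nat.not_lt_zero _)⟩
    · exfalso
      apply hgD
      have h1 := hK.2 (K - 1) (by omega)
      have h2 := hK.1
      rw [show K = (K - 1) + 1 by omega, Function.iterate_succ_apply'] at h2
      rw [← h2, tlv_nx]
      exact h1

section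

variable (hq : IsPolygon q) (hD : Encloses q D)
include hq hD

omit hD in
/-- the inner square of a side of the window -/
theorem JW.side (hW : JW q D k R) {j : ℕ} (h1 : (k : ℤ) - R ≤ j) (h2 : (j : ℤ) + 1 ≤ k + R)
    (hv : hdv (be q (j : ZMod n)) ∈ D) :
    hdv (be q (j : ZMod n)) = ((q (k : ZMod n)).1 + (j - k), (q (k : ZMod n)).2) := by
  have e1 := hW.idx j h1 (by omega)
  have e2 := hW.idx (j + 1) (by push_cast; omega) (by push_cast; omega)
  push_cast at e2
  set v := hdv (be q (j : ZMod n)) with hvd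
  have c1 : Cor v (q (j : ZMod n)) ∧ Cor v (q ((j : ZMod n) + 1)) := by
    rcases be_sides hq (j : ZMod n) with ⟨h3, h4⟩ | ⟨h3, h4⟩
    · rw [← h3, ← h4]
      exact ⟨cor_ls _, cor_rs _⟩
    · rw [← h3, ← h4]
      exact ⟨cor_rs _, cor_ls _⟩
  obtain ⟨⟨c1, c2⟩, c3, c4⟩ := c1
  rw [e1] at c1 c2
  rw [e2] at c3 c4
  dsimp only at c1 c2 c3 c4
  have hR := hW.pos
  have h5 := (hW.dom v (nm_le.2 (by
    simp only [Prod.fst_sub, Prod.snd_sub]
    omega))).1 hv
  refine Prod.ext ?_ ?_ <;> dsimp only <;> omega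

/-- **Confinement**: a strand with its entry below a path stays in the box of the path. -/
theorem confine (hW : JW q D k R) (hρ : 0 ≤ ρ) (hρR : ρ + 1 ≤ R)
    (h1 : (k : ℤ) - ρ ≤ m1) (h2 : (m2 : ℤ) ≤ k + ρ)
    (hp : PConn (cs f ω ∩ ↑(D ∩ Bq (q (k : ZMod n)) ρ)) Set.univ (q (m1 : ZMod n))
      (q (m2 : ZMod n)))
    (hpar : ((q (m1 : ZMod n)).1 + (q (m1 : ZMod n)).2) % 2 = pr f)
    (hA : A ∈ pcs ω D) (hxy : IsXY q A x y) (hx : m1 ≤ x) (hx2 : x < m2) :
    ∀ e ∈ A, hdv e ∈ D → hdv e ∈ Bq (q (k : ZMod n)) ρ := by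
  classical
  intro e he heD
  by_contra hne
  have hlt := hW.lt
  have hgt := hW.gt
  set g := be q (x : ZMod n) with hg
  obtain ⟨b1, b2, b3, b4⟩ := be_even hq hD hxy.2.2.2.2.1
  rw [← hg] at b1 b2 b3 b4
  obtain ⟨K, hK, hKD⟩ := run_entry hA hxy.2.2.1 b4 he
  have hex : ∃ j, hdv (st g ω j) ∉ Bq (q (k : ZMod n)) ρ := ⟨K, by rw [hK]; exact hne⟩
  set j0 := Nat.find hex with hj0
  have hj1 : hdv (st g ω j0) ∉ Bq (q (k : ZMod n)) ρ := Nat.find_spec hex
  have hj2 : ∀ j < j0, hdv (st g ω j) ∈ Bq (q (k : ZMod n)) ρ := fun j hj => not_not.1 (Nat.find_min hex hj)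
  have hj3 : j0 ≤ K := Nat.find_min' hex (by rw [hK]; exact hne)
  have hjD : ∀ j ≤ j0, hdv (st g ω j) ∈ D := by
    intro j hj
    rcases (hj.trans hj3).lt_or_eq with h | h
    · exact hKD j h
    · rw [h, hK]
      exact heD
  -- the first square
  have hv0 : hdv g ∈ Bq (q (k : ZMod n)) ρ := by
    rw [hg, JW.side hq hW (by omega) (by omega) b3, mem_Bq]
    dsimp only
    omega
  have hj4 : 0 < j0 := by
    rcases Nat.eq_zero_or_pos j0 with h | h
    · rw [h] at hj1
      exact absurd hv0 hj1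
    · exact h
  -- the square of the exit
  have hv1 : hdv (st g ω j0) ∈ Bq (q (k : ZMod n)) (ρ + 1) := by
    have h3 := H318.hdv_nx ω (st g ω (j0 - 1))
    have h4 : nx ω (st g ω (j0 - 1)) = st g ω j0 := by
      rw [← H318.Bs.st_succ]
      congr 1
      omega
    rw [h4] at h3
    have h5 := mem_Bq.1 (hj2 (j0 - 1) (by omega))
    rw [mem_Bq]
    omega
  have hnm : ∀ w ∈ Bq (q (k : ZMod n)) (ρ + 1), nm (w - q (k : ZMod n)) ≤ R := by
    intro w hw
    rw [mem_Bq] at hw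
    rw [nm_le]
    simp only [Prod.fst_sub, Prod.snd_sub]
    omega
  have hv2 : (q (k : ZMod n)).2 ≤ (hdv (st g ω j0)).2 := (hW.dom _ (hnm _ hv1)).1 (hjD _ le_rfl)
  -- the path along the strand
  have hsp := strand_path (b := !f) (ξ := ω) (g := g) (N := j0) (A := D ∩ Bq (q (k : ZMod n)) ρ) fun j hj =>
    Finset.mem_inter.2 ⟨hjD j hj.le, hj2 j hj⟩
  -- the modified configuration
  set ω' : Cfg := fun v => if v ∈ Bq (q (k : ZMod n)) ρ then ω v else !f with hω'
  have hcs : ∀ c : Bool, cs c ω ∩ ↑(D ∩ Bq (q (k : ZMod n)) ρ) ⊆ cs c ω' ∩ (↑D : Set (ℤ × ℤ)) := by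
    rintro c v ⟨hv, hv'⟩
    have hv'' := Finset.mem_inter.1 (Finset.mem_coe.1 hv')
    refine ⟨?_, hv''.1⟩
    show ω' v = c
    rw [hω']
    simp only [if_pos hv''.2]
    exact hv
  obtain ⟨s1, s2⟩ := cor_bk (!f) (st g ω j0)
  obtain ⟨t, t1, t2, t3⟩ := ring (G := cs (!f) ω' ∩ (↑D : Set (ℤ × ℤ))) hρ (fun w hw hw' hw2 => by
    refine ⟨?_, (hW.dom w (hnm w hw)).2 hw2⟩
    show ω' w = !f
    rw [hω']
    simp only [if_neg hw']) hv1 hj1 hv2 s1 s2
  have hst : PConn (cs (!f) ω' ∩ (↑D : Set (ℤ × ℤ))) Set.univ (bk (!f) g) t :=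
    (hsp.mono (hcs _) subset_rfl).trans t3
  have hpf : PConn (cs f ω' ∩ (↑D : Set (ℤ × ℤ))) Set.univ (q (m1 : ZMod n)) (q (m2 : ZMod n)) :=
    hp.mono (hcs _) subset_rfl
  obtain ⟨j2, d1, d2, d3⟩ := hW.site (t := t) t1 (by rw [abs_le]; omega)
  have hprf : pr f + pr (!f) = 1 := by cases f <;> decide
  have hp0 : pr f = 0 ∨ pr f = 1 := by cases f <;> decide
  -- the index of the first site
  obtain ⟨c1, hc1, hc2, hc3⟩ : ∃ c1 : ℕ, bk (!f) g = q (c1 : ZMod n) ∧ m1 < c1 ∧ c1 < m2 := by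
    have hpar2 : ((q (m2 : ZMod n)).1 + (q (m2 : ZMod n)).2) % 2 = pr f := by
      have := hp.parity
      omega
    have hbp := bk_par (!f) g
    cases f
    · refine ⟨x, b1, ?_, hx2⟩
      rcases hx.lt_or_eq with h | h
      · exact h
      · exfalso
        rw [h] at hpar
        have h5 : bk (!false) g = q (x : ZMod n) := b1
        rw [h5] at hbp
        omega
    · refine ⟨x + 1, by push_cast; exact b2, by omega, ?_⟩
      rcases (Nat.succ_le_of_lt hx2).lt_or_eq with h | h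
      · exact h
      · exfalso
        rw [← h] at hpar2
        have h5 : bk (!true) g = q ((x + 1 : ℕ) : ZMod n) := by push_cast; exact b2
        rw [h5] at hbp
        rw [Nat.succ_eq_add_one] at hpar2
        omega
  rw [hc1, ← d2] at hst
  have hbp : ((q (c1 : ZMod n)).1 + (q (c1 : ZMod n)).2) % 2 = pr (!f) := by
    rw [← hc1]
    exact bk_par _ _
  have hjp : ((q (j2 : ZMod n)).1 + (q (j2 : ZMod n)).2) % 2 = pr (!f) := by
    have := hst.parity
    omega
  rcases t2 with t2 | t2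
  · -- the path leaves on the left
    have h5 : j2 < m1 := by
      rcases (show j2 ≤ m1 by omega).lt_or_eq with h | h
      · exact h
      · exfalso
        rw [h] at hjp
        omega
    refine interlace hq hD (e := !f) h5 hc2 hc3 (by omega) hst.symm hjp ?_ ?_
    · rw [Bool.not_not]
      exact hpf
    · rw [Bool.not_not]
      exact hpar
  · have h5 : m2 < j2 := by
      rcases (show m2 ≤ j2 by omega).lt_or_eq with h | h
      · exact h
      · exfalso
        have := hp.parity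
        rw [← h] at hjp
        omega
    exact interlace hq hD (e := f) hc2 hc3 h5 d3.le hpf hpar hst hbp

end

end Vale.Agent.P167.H685.LD
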