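import Vale.Agent.P167.H685.LD.SqRoom
import Vale.Agent.P167.H718.Lam.Cut

/-!
# P167, general `q`, block Q-LAM, [LD]: the lower bound for the Dobrushin squares

`l_dob`: `L_dob` from `L_gen`.
-/

namespace Vale.Agent.P167.H685.LD

open Finset Filter
open Vale.Agent.P167.BR Vale.Agent.P167.FK Vale.Agent.P167.FKA
open Vale.Agent.P167.E6 (IsPolygon Encloses dir)
open Vale.Agent.P167.H632 (pr)
open Vale.Agent.P167.H825 (enl pdir ptau)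
open Vale.Agent.P167.H192.Q (SRSW)
open Vale.Agent.P167.H365.NQ (XW)
open Vale.Agent.P167.H718.Lam (dP dS enP Pg L_gen L_dob)
open Vale.Agent.P167.H318.LC (HB tau_ptau)
open Vale.Agent.P167.H601.LG (wJ GeoN Spe SepL Typ exists_low_loc)
open Vale.Agent.P167.H975 (TX)

variable {n s s' k L : ℕ} {i : Fin 2} {a : ℤ × ℤ} {τ : ℕ → ℤ} {η : Cfg} {θ : ℝ}

theorem exists_col (x : ℤ × ℤ) : ∃ e : Bool, (x.1 + x.2) % 2 = pr e := by
  rcases Int.emod_two_eq_zero_or_one (x.1 + x.2) with h | h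
  · exact ⟨true, h⟩
  · exact ⟨false, h⟩

/-- the junction is in the interior of a side -/
theorem sq_flat (hn : 0 < n) (hs : s < n) (hs'0 : 0 < s') (hs' : s' < n)
    (hk : k + s = ![1, 7] i * n + s') (hu : HB (dP i) dS n s a k τ η) (hk0 : 0 < k) :
    τ k = τ (k - 1) := by
  have hp := dP_poly i
  rw [tau_ptau hn hp hs hu k, tau_ptau hn hp hs hu (k - 1)]
  have e1 : (k + s) / n = ![1, 7] i := by
    rw [hk, add_comm, Nat.add_mul_div_right _ _ hn, Nat.div_eq_of_lt hs', zero_add]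
  have e2 : (k - 1 + s) / n = ![1, 7] i := by
    have e3 : k - 1 + s = (s' - 1) + ![1, 7] i * n := by omega
    rw [e3, Nat.add_mul_div_right _ _ hn, Nat.div_eq_of_lt (by omega), zero_add]
  rw [e1, e2]

/-- the base is in the interior of a side -/
theorem sq_flat0 (hn : 0 < n) (hs0 : 0 < s) (hs : s < n) (hu : HB (dP i) dS n s a k τ η) :
    τ (8 * n) = τ (8 * n - 1) := by
  have hp := dP_poly i
  rw [tau_ptau hn hp hs hu (8 * n), tau_ptau hn hp hs hu (8 * n - 1)]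
  have e1 : (8 * n + s) / n = 8 := by
    rw [add_comm, Nat.add_mul_div_right _ _ hn, Nat.div_eq_of_lt hs, zero_add]
  have e2 : (8 * n - 1 + s) / n = 8 := by
    have e3 : 8 * n - 1 + s = (s - 1) + 8 * n := by omega
    rw [e3, Nat.add_mul_div_right _ _ hn, Nat.div_eq_of_lt (by omega), zero_add]
  rw [e1, e2]

/-- the type of the special points -/
theorem sq_typ (hn : 0 < n) (hs0 : 0 < s) (hs : s < n) (hs'0 : 0 < s') (hs' : s' < n)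
    (hk : k + s = ![1, 7] i * n + s') (hu : HB (dP i) dS n s a k τ η) (hk0 : 0 < k)
    (hkN : k < 8 * n) : Typ (8 * n) k τ ((θ - Real.pi) / 2) θ where
  kle := hkN.le
  one := by omega
  dob := fun _ _ => ⟨sq_flat0 hn hs0 hs hu, sq_flat hn hs hs'0 hs' hk hu hk0⟩
  gau := rfl

/-- the strip -/
noncomputable def stA (D : Finset (ℤ × ℤ)) (x R : ℤ) : Finset (ℤ × ℤ) :=
  D.filter fun v => x - R ≤ v.1 ∧ v.1 < x + R

/-- **Positive association in the strip above the junction.** -/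
theorem dob_prob {Q : ℝ} (hQ : 1 ≤ Q) {N : ℕ} {q : ZMod N → ℤ × ℤ} {D : Finset (ℤ × ℤ)} {R h rB r : ℤ}
    {r1 R1 : ℤ} {e : Bool} {c : ℝ} {J : Finset ℕ} (hη : Good η)
    (hfar : ∀ j ∈ J, R + 1 ≤ |(q (j : ZMod N)).1 - (q (k : ZMod N)).1|) (hR : R1 + rB ≤ R)
    (hst : ∀ ω : Cfg, Good ω → c ≤ FK.Pr Q (stA D (q (k : ZMod N)).1 R1) ω
      (SE e (q (k : ZMod N)) r1 R1 h)) {F : Cfg → ℝ} (hF0 : ∀ ω, 0 ≤ F ω)
    (hF : Loc (D ∩ J.biUnion fun j => Bq (q (j : ZMod N)) rB) F) :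
    c * Ex Q D η (fun ω => F ω * (Ea e D (q (k : ZMod N)) r).indicator 1 ω) ≤
      Ex Q D η (fun ω => F ω * (Ea e D (q (k : ZMod N)) r ∩
        SE e (q (k : ZMod N)) r1 R1 h).indicator 1 ω) := by
  refine fkg_cond (e := e) hQ hη (Finset.filter_subset _ D : stA D (q (k : ZMod N)).1 R1 ⊆ D) ?_ hF0
    ?_ (inc_SE _ _ _ _ _) fun ω hω _ => hst ω hω
  · intro ω ω' hωω
    refine hF ω ω' fun v hv => hωω v fun hv' => ?_
    obtain ⟨hvD, hvJ⟩ := Finset.mem_inter.1 hv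
    obtain ⟨j, hj, hvj⟩ := Finset.mem_biUnion.1 hvJ
    have h1 := (Finset.mem_filter.1 hv').2
    have h2 := hfar j hj
    rw [mem_Bq] at hvj
    rw [le_abs] at h2
    omega
  · exact fun ω ω' hωω hω => Ea_up (fun v _ _ hv => hωω v hv) hω

/-- The conclusion of [L-GEN] for one polygon. -/
def GenAt (θ c₁ c₂ c : ℝ) (rP rJ rT : ℤ) (X : Pg) : Prop := ∀ P Z : Finset ℕ,
  Disjoint P Z → P ∪ Z = X.sp →
    (∀ j ∈ P, ∀ ω, ∀ A ∈ pcs ω X.D, (∀ e ∈ A, hdv e ∈ Bq (X.q (j : ZMod X.N)) rP) →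
      c₁ ≤ X.w θ A) →
    (∀ j ∈ Z, ∀ ω, ∀ r : ℤ, 1 ≤ r → r ≤ rP → X.T θ j r ω = 0 ∨ X.T θ j r ω = 1) →
    (∀ ω, 0 ≤ XW X.D (X.w θ) ω) →
    ∀ H : Cfg → ℝ, (∀ ω, 0 ≤ H ω ∧ H ω ≤ 1) →
      (∀ ω, H ω ≠ 0 → X.TZ θ Z rJ ω ≠ 0 → ∀ A ∈ pcs ω X.D, c₁ ≤ X.w θ A) →
      (∀ F : Cfg → ℝ, (∀ ω, 0 ≤ F ω) →
        FKA.Loc (X.D ∩ P.biUnion fun j => Bq (X.q (j : ZMod X.N)) rJ) F →
        c₂ * X.E θ (fun ω => F ω * X.TZ θ Z rJ ω) ≤
          X.E θ (fun ω => F ω * X.TZ θ Z rJ ω * H ω)) →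
      c * ∏ j ∈ X.sp, X.eT θ j rT ≤ X.eX θ

section fix

variable {cw cl c c₂ : ℝ} {rP rJ r1 Λ rT : ℤ} {K : ℕ} {e : Bool}

/-- the local factor at the junction -/
theorem sq_TZ (h0 : 0 < θ) (h1 : θ ≤ Real.pi / 3) (hn : 0 < n) (hs0 : 0 < s) (hs : s < n)
    (hs'0 : 0 < s') (hs' : s' < n)
    (hk : k + s = ![1, 7] i * n + s') (hu : HB (dP i) dS n s a k τ η) (hS : SepL L (8 * n) τ k)
    (hq : IsPolygon (sqQ i n s a)) (hD : Encloses (sqQ i n s a) (sqD n a))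
    (hgeo : GeoN n (8 * n) (sqQ i n s a) τ)
    (he : ((sqQ i n s a (k : ZMod (8 * n))).1 + (sqQ i n s a (k : ZMod (8 * n))).2) % 2 = pr e)
    (hJ1 : 1 ≤ rJ) (hJn : 3 * (rJ + 1) < n) (hJL : 2 * (rJ + 1) < L) (ω : Cfg) :
    (enP (dP i) dS n s a k τ η).TZ θ {k} rJ ω =
      (Ea e (sqD n a) (sqQ i n s a (k : ZMod (8 * n))) rJ).indicator 1 ω := by
  have hM := room_sq hn hs0 hs hs'0 hs' hk hu hS (by omega)
  obtain ⟨b1, b2, b3, b4⟩ := jx_bounds hn hs0 hs hs'0 hs' hk hu hS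
  have hfl := sq_flat hn hs hs'0 hs' hk hu (by omega)
  unfold Pg.TZ
  rw [Finset.prod_singleton]
  exact TX_jun h0 h1 hgeo hq hD hS hfl hM.jw he (by omega) (by omega) (by omega) (by omega)

/-- the probability of the arcs -/
theorem sq_str {Q : ℝ} (hn : 0 < n) (hs0 : 0 < s) (hs : s < n) (hs'0 : 0 < s') (hs' : s' < n)
    (hk : k + s = ![1, 7] i * n + s') (hu : HB (dP i) dS n s a k τ η) (hS : SepL L (8 * n) τ k)
    (hL : 2 ≤ L) {r0 : ℤ} (hΛ : 2 ≤ Λ) (hr1 : 1 ≤ r1) (hr0 : r0 ≤ r1) (hr1a : Λ * r1 < L)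
    (hr1n : Λ * r1 < n) (hKn : 2 * (n : ℤ) ≤ K * r1)
    (hst : ∀ (e : Bool) (a : ℤ × ℤ) (H r : ℤ) (A : Finset (ℤ × ℤ)) (ω : Cfg),
      Good ω → r0 ≤ r → a.2 + (Λ + 1) * r < H → H - a.2 ≤ K * r →
      (∀ v : ℤ × ℤ, a.1 - Λ * r ≤ v.1 → v.1 < a.1 + Λ * r → a.2 ≤ v.2 → v.2 < H → v ∈ A) →
      c₂ ≤ FK.Pr Q A ω (SE e a r (Λ * r) H)) (ω : Cfg) (hω : Good ω) :
    c₂ ≤ FK.Pr Q (stA (sqD n a) (sqQ i n s a (k : ZMod (8 * n))).1 (Λ * r1)) ω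
      (SE e (sqQ i n s a (k : ZMod (8 * n))) r1 (Λ * r1)
        ((sqQ i n s a (k : ZMod (8 * n))).2 + 2 * n)) := by
  have hM := room_sq hn hs0 hs hs'0 hs' hk hu hS hL
  refine hst e _ _ r1 _ ω hω hr0 ?_ ?_ ?_
  · have : (Λ + 1) * r1 ≤ 2 * (Λ * r1) := by nlinarith
    omega
  · omega
  · intro v v1 v2 v3 v4
    exact Finset.mem_filter.2 ⟨(hM.strip v (by omega) (by omega)).2 ⟨v3, v4⟩, v1, v2⟩

/-- **The lower bound for one square.** -/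
theorem dob_fix (h0 : 0 < θ) (h1 : θ ≤ Real.pi / 3) (hQ : 1 ≤ 2 * Real.cos θ)
    (hlow : ∀ {N k : ℕ} {q : ZMod N → ℤ × ℤ} {D : Finset (ℤ × ℤ)} {R r r1 R1 h : ℤ} {ω : Cfg}
      {e : Bool} {τ : ℕ → ℤ}, IsPolygon q → Encloses q D → Room q D k τ R h →
      ((q (k : ZMod N)).1 + (q (k : ZMod N)).2) % 2 = pr e → 1 ≤ r1 → r1 ≤ R1 → R1 ≤ r →
      r + 2 ≤ R → ω ∈ Ea e D (q (k : ZMod N)) r →
      ω ∈ SE e (q (k : ZMod N)) r1 R1 ((q (k : ZMod N)).2 + h) → ∀ A ∈ pcs ω D,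
      cw ≤ wJ θ ((θ - Real.pi) / 2) q D k τ A)
    (hloc : ∀ {N : ℕ} {q : ZMod N → ℤ × ℤ} {D : Finset (ℤ × ℤ)} {ω : Cfg} {A : Finset Ed}
      {τ : ℕ → ℤ} {n k L : ℕ} {β : ℝ}, GeoN n N q τ → IsPolygon q → Encloses q D → A ∈ pcs ω D →
      SepL L N τ k → Typ N k τ β θ → ∀ {r : ℤ}, 3 * (r + 1) < n → 4 * (r + 1) < L →
      ∀ {j : ℕ}, j < N → Spe τ k j → (∀ e ∈ A, hdv e ∈ Bq (q (j : ZMod N)) r) →
      cl ≤ wJ θ β q D k τ A ∨
        (0 < k ∧ k < N ∧ j = k ∧ ¬ IsLp D A ∧ H601.LG.Fw q k A ∧ H601.LG.Kt q τ A = 0))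
    (hn : 0 < n) (hs0 : 0 < s) (hs : s < n) (hs'0 : 0 < s') (hs' : s' < n)
    (hk : k + s = ![1, 7] i * n + s') (hu : HB (dP i) dS n s a k τ η) (hS : SepL L (8 * n) τ k)
    (hq : IsPolygon (sqQ i n s a)) (hD : Encloses (sqQ i n s a) (sqD n a))
    (hgeo : GeoN n (8 * n) (sqQ i n s a) τ) (hη : Good η)
    (hL : 99 ≤ L) (hP2 : 100 * rP ≤ n) (hP3 : 100 * rP ≤ L + 1) (hn100 : 100 ≤ n)
    (hJP : rJ ≤ rP) (hJ1 : 1 ≤ rJ) (hr1a : Λ * r1 ≤ rJ) (hr1pos : 1 ≤ r1) (hΛ : 2 ≤ Λ)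
    (he : ((sqQ i n s a (k : ZMod (8 * n))).1 + (sqQ i n s a (k : ZMod (8 * n))).2) % 2 = pr e)
    (hstr : ∀ ω : Cfg, Good ω → c₂ ≤ FK.Pr (2 * Real.cos θ)
      (stA (sqD n a) (sqQ i n s a (k : ZMod (8 * n))).1 (Λ * r1)) ω
      (SE e (sqQ i n s a (k : ZMod (8 * n))) r1 (Λ * r1)
        ((sqQ i n s a (k : ZMod (8 * n))).2 + 2 * n)))
    (H : GenAt θ (min cw cl) c₂ c rP rJ rT (enP (dP i) dS n s a k τ η)) :
    c * ∏ j ∈ (enP (dP i) dS n s a k τ η).sp, (enP (dP i) dS n s a k τ η).eT θ j rT ≤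
      (enP (dP i) dS n s a k τ η).eX θ := by
  classical
  obtain ⟨b1, b2, b3, b4⟩ := jx_bounds hn hs0 hs hs'0 hs' hk hu hS
  have hM := room_sq hn hs0 hs hs'0 hs' hk hu hS (by omega)
  have hfl := sq_flat hn hs hs'0 hs' hk hu (by omega)
  have hkN : k < 8 * n := by omega
  have htyp : Typ (8 * n) k τ ((θ - Real.pi) / 2) θ :=
    sq_typ hn hs0 hs hs'0 hs' hk hu (by omega) hkN
  have hT := sq_TZ (rJ := rJ) h0 h1 hn hs0 hs hs'0 hs' hk hu hS hq hD hgeo he hJ1 (by omega)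
    (by omega)
  have hmem : ∀ {j}, j ∈ (enP (dP i) dS n s a k τ η).sp ↔ j < 8 * n ∧ Spe τ k j := by
    intro j
    show j ∈ (range (8 * n)).filter (Spe τ k) ↔ _
    rw [Finset.mem_filter, Finset.mem_range]
  have hkm : k ∈ (enP (dP i) dS n s a k τ η).sp := hmem.2 ⟨hkN, Or.inr (Or.inl rfl)⟩
  have hfar : ∀ j ∈ (enP (dP i) dS n s a k τ η).sp.erase k, ((L : ℤ) - 1) + 1 ≤
      |(sqQ i n s a (j : ZMod (8 * n))).1 - (sqQ i n s a (k : ZMod (8 * n))).1| := by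
    intro j hj
    obtain ⟨hjk, hj⟩ := Finset.mem_erase.1 hj
    obtain ⟨hjN, hjS⟩ := hmem.1 hj
    have := sq_far hn hs0 hs hs'0 hs' hk hu hS hjN hjk hjS
    omega
  clear hs0 hs hs'0 hs' hk b3 b4
  refine H ((enP (dP i) dS n s a k τ η).sp.erase k) {k} ?_ ?_ ?_ ?_ ?_
    ((SE e (sqQ i n s a (k : ZMod (8 * n))) r1 (Λ * r1)
        ((sqQ i n s a (k : ZMod (8 * n))).2 + 2 * n)).indicator 1) ?_ ?_ ?_
  · exact Finset.disjoint_singleton_right.2 (Finset.notMem_erase _ _)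
  · rw [Finset.union_comm, ← Finset.insert_eq, Finset.insert_erase hkm]
  · intro j hj ω A hA hin
    obtain ⟨hjk, hj⟩ := Finset.mem_erase.1 hj
    obtain ⟨hjN, hjS⟩ := hmem.1 hj
    rcases hloc hgeo hq hD hA hS htyp (r := rP) (by omega) (by omega) hjN hjS hin with h | h
    · exact (min_le_right _ _).trans h
    · exact absurd h.2.2.1 hjk
  · intro j hj ω r hr hr'
    rw [Finset.mem_singleton] at hj
    subst hj
    have hTr : (enP (dP i) dS n s a j τ η).T θ j r ω =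
        (Ea e (sqD n a) (sqQ i n s a (j : ZMod (8 * n))) r).indicator 1 ω :=
      TX_jun h0 h1 hgeo hq hD hS hfl hM.jw he hr (by omega) (by omega) (by omega)
    rw [hTr]
    by_cases hω : ω ∈ Ea e (sqD n a) (sqQ i n s a (j : ZMod (8 * n))) r
    · rw [Set.indicator_of_mem hω]
      exact Or.inr rfl
    · rw [Set.indicator_of_notMem hω]
      exact Or.inl rfl
  · intro ω
    exact Finset.prod_nonneg fun A hA => w_nonneg h0 h1 hq hD hM.mono hA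
  · intro ω
    by_cases hω : ω ∈ SE e (sqQ i n s a (k : ZMod (8 * n))) r1 (Λ * r1)
        ((sqQ i n s a (k : ZMod (8 * n))).2 + 2 * n)
    · rw [Set.indicator_of_mem hω]
      simp
    · rw [Set.indicator_of_notMem hω]
      simp
  · intro ω hω hω2 A hA
    rw [hT] at hω2
    exact (min_le_left _ _).trans (hlow hq hD hM he hr1pos (by nlinarith) hr1a (by omega)
      (Set.mem_of_indicator_ne_zero hω2) (Set.mem_of_indicator_ne_zero hω) A hA)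
  · intro F hF0 hF
    have key := dob_prob (r := rJ) (rB := rJ) (R := (L : ℤ) - 1) (η := η)
      (J := (enP (dP i) dS n s a k τ η).sp.erase k) hQ hη hfar (by omega) hstr hF0 hF
    have e1 : (fun ω => F ω * (enP (dP i) dS n s a k τ η).TZ θ {k} rJ ω) = fun ω => F ω *
        (Ea e (sqD n a) (sqQ i n s a (k : ZMod (8 * n))) rJ).indicator 1 ω := by
      funext ω
      rw [hT]
    have e2 : (fun ω => F ω * (enP (dP i) dS n s a k τ η).TZ θ {k} rJ ω *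
        (SE e (sqQ i n s a (k : ZMod (8 * n))) r1 (Λ * r1)
          ((sqQ i n s a (k : ZMod (8 * n))).2 + 2 * n)).indicator 1 ω) = fun ω => F ω *
        (Ea e (sqD n a) (sqQ i n s a (k : ZMod (8 * n))) rJ ∩
          SE e (sqQ i n s a (k : ZMod (8 * n))) r1 (Λ * r1)
            ((sqQ i n s a (k : ZMod (8 * n))).2 + 2 * n)).indicator 1 ω := by
      funext ω
      rw [hT, mul_assoc, Set.inter_indicator_one]
      rfl
    rw [e1, e2]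
    exact key

end fix

/-- **[L-DOB]** from [L-GEN]. -/
theorem l_dob (h0 : 0 < θ) (h1 : θ ≤ Real.pi / 3) (hR : RSW (2 * Real.cos θ))
    (hSR : SRSW (2 * Real.cos θ)) (hG : L_gen θ) : L_dob θ := by
  classical
  have hpi := Real.pi_pos
  have hQ : 1 ≤ 2 * Real.cos θ := by
    have := Real.cos_le_cos_of_nonneg_of_le_pi h0.le (by linarith) h1
    rw [Real.cos_pi_div_three] at this
    linarith
  obtain ⟨cw, hcw, -, hlow⟩ := low_of h0 h1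
  obtain ⟨cl, hcl, -, hloc⟩ := exists_low_loc h0 h1
  obtain ⟨Λ, hΛ, hst⟩ := strip_ge hQ hR hSR
  intro σ R hσ
  obtain ⟨ρ₀, hρ₀, hρσ, hρ1, H⟩ := hG σ R (min cw cl) hσ (lt_min hcw hcl)
  refine ⟨ρ₀, hρ₀, fun ρ hρ hρρ₀ => ?_⟩
  obtain ⟨ε, hε, hερ, H⟩ := H ρ hρ hρρ₀
  have hΛ' : (0 : ℝ) < Λ := by exact_mod_cast (by omega : 0 < Λ)
  obtain ⟨K, hK⟩ := exists_nat_ge (4 * (Λ : ℝ) / ε)
  obtain ⟨c₂, r0, hc₂, hst⟩ := hst K
  obtain ⟨c, n₀, hc, H⟩ := H c₂ hc₂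
  -- the size of `n`
  obtain ⟨n₁, hn₁⟩ := exists_nat_ge (max (100 / σ) (max (100 : ℝ)
    (2 * (Λ : ℝ) * (((|r0| : ℤ) : ℝ) + 2) / ε)))
  refine ⟨c, max n₀ n₁, hc, fun n hn i s s' a k τ η hs0 hs hs'0 hs' hk hOk => ?_⟩
  have hn0 : n₀ ≤ n := (le_max_left _ _).trans hn
  have hn1 : (n₁ : ℝ) ≤ n := by exact_mod_cast (le_max_right _ _).trans hn
  have m1 : 100 / σ ≤ n := ((le_max_left _ _).trans hn₁).trans hn1
  have m2 : (100 : ℝ) ≤ n := ((le_max_left _ _).trans ((le_max_right _ _).trans hn₁)).trans hn1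
  have m3 : 2 * (Λ : ℝ) * (((|r0| : ℤ) : ℝ) + 2) / ε ≤ n :=
    ((le_max_right _ _).trans ((le_max_right _ _).trans hn₁)).trans hn1
  rw [div_le_iff₀ hσ] at m1
  rw [div_le_iff₀ hε] at m3
  have hnpos : 0 < n := by
    have : (0 : ℝ) < n := by linarith
    exact_mod_cast this
  have hnR : (0 : ℝ) < n := by exact_mod_cast hnpos
  set X := enP (dP i) dS n s a k τ η with hX
  have hu : HB (dP i) dS n s a k τ η := hOk.bd
  have hS : SepL ⌊σ * n⌋₊ (8 * n) τ k := hOk.sep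
  have hq : IsPolygon (sqQ i n s a) := hOk.poly
  have hD : Encloses (sqQ i n s a) (sqD n a) := hOk.enc
  have hgeo : GeoN n (8 * n) (sqQ i n s a) τ := hOk.geo
  have hdob : H718.Dob η (sqD n a) (sqQ i n s a) k := hOk.dob
  obtain ⟨L, hL⟩ : ∃ L, L = ⌊σ * n⌋₊ := ⟨_, rfl⟩
  rw [← hL] at hS
  have hL1 : (L : ℝ) ≤ σ * n := by
    rw [hL]
    exact Nat.floor_le (by positivity)
  have hL2 : σ * n < L + 1 := by
    rw [hL]
    exact Nat.lt_floor_add_one _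
  have hL99 : 99 ≤ L := by
    have : (98 : ℝ) < L := by linarith [mul_comm σ (n : ℝ)]
    exact_mod_cast this
  -- radii
  obtain ⟨rJ, hrJ⟩ : ∃ rJ : ℤ, rJ = ⌊ε * n⌋ := ⟨_, rfl⟩
  obtain ⟨rP, hrP⟩ : ∃ rP : ℤ, rP = ⌊ρ₀ * n⌋ := ⟨_, rfl⟩
  have hJ1 : (rJ : ℝ) ≤ ε * n := by rw [hrJ]; exact Int.floor_le _
  have hJ2 : ε * n < rJ + 1 := by rw [hrJ]; exact Int.lt_floor_add_one _
  have hP1 : (rP : ℝ) ≤ ρ₀ * n := by rw [hrP]; exact Int.floor_le _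
  have hJP : rJ ≤ rP := by
    rw [hrJ, hrP]
    exact Int.floor_le_floor (mul_le_mul_of_nonneg_right (hερ.trans hρρ₀) hnR.le)
  have hP2 : 100 * rP ≤ n := by
    have : (100 : ℝ) * rP ≤ n := by nlinarith
    exact_mod_cast this
  have hP3 : 100 * rP ≤ L + 1 := by
    have : (100 : ℝ) * rP ≤ L + 1 := by nlinarith
    exact_mod_cast this
  obtain ⟨r1, hr1⟩ : ∃ r1 : ℤ, r1 = rJ / Λ := ⟨_, rfl⟩
  have hr1a : Λ * r1 ≤ rJ := by
    rw [hr1]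
    exact Int.mul_ediv_self_le (by omega)
  have hr1b : rJ + 1 ≤ Λ * (r1 + 1) := by
    have h2 := Int.emod_add_mul_ediv rJ Λ
    have h3 := Int.emod_lt_of_pos rJ (show 0 < Λ by omega)
    rw [← hr1] at h2
    have h4 : Λ * (r1 + 1) = Λ * r1 + Λ := by ring
    omega
  have hx : ε * n < Λ * ((r1 : ℝ) + 1) := by
    have e1 : (rJ : ℝ) + 1 ≤ Λ * (r1 + 1) := by exact_mod_cast hr1b
    linarith
  have hr1c : 2 * (|r0| + 2) < r1 + 1 := by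
    have h2 : (Λ : ℝ) * (2 * (((|r0| : ℤ) : ℝ) + 2)) < Λ * ((r1 : ℝ) + 1) := by
      refine lt_of_le_of_lt ?_ hx
      linarith [mul_comm ε (n : ℝ)]
    have h3 := lt_of_mul_lt_mul_left h2 hΛ'.le
    exact_mod_cast h3
  have hr0a : r0 ≤ |r0| := le_abs_self _
  have hr0b : 0 ≤ |r0| := abs_nonneg _
  have hr1pos : 1 ≤ r1 := by omega
  have hKn : 2 * (n : ℤ) ≤ K * r1 := by
    have h2 : 4 * (Λ : ℝ) * n ≤ K * (ε * n) := by
      rw [div_le_iff₀ hε] at hK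
      nlinarith
    have h3 : (K : ℝ) * (ε * n) ≤ K * (Λ * (2 * r1)) := by
      refine mul_le_mul_of_nonneg_left ?_ (Nat.cast_nonneg K)
      refine hx.le.trans (mul_le_mul_of_nonneg_left ?_ hΛ'.le)
      have : (1 : ℝ) ≤ r1 := by exact_mod_cast hr1pos
      linarith
    have h4 : (Λ : ℝ) * (4 * n) ≤ Λ * (2 * (K * r1)) := by linarith
    have h5 := le_of_mul_le_mul_left h4 hΛ'
    have h6 : 2 * (n : ℝ) ≤ K * r1 := by linarith
    exact_mod_cast h6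
  obtain ⟨e, he⟩ := exists_col (sqQ i n s a (k : ZMod (8 * n)))
  have hLn : (L : ℤ) ≤ n := by
    obtain ⟨b1, b2, b3, b4⟩ := jx_bounds hnpos hs0 hs hs'0 hs' hk hu hS
    omega
  refine dob_fix (cw := cw) (cl := cl) (c₂ := c₂) (rP := rP) (rJ := rJ) (r1 := r1) (Λ := Λ) (e := e)
    (rT := ⌊ρ * n⌋) h0 h1 hQ hlow hloc hnpos hs0 hs hs'0 hs' hk hu hS hq hD hgeo hdob.good hL99 hP2
    hP3 (by exact_mod_cast m2) hJP (by nlinarith) hr1a hr1pos hΛ he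
    (sq_str hnpos hs0 hs hs'0 hs' hk hu hS (by omega) hΛ hr1pos (by omega) (by omega) (by omega) hKn
      hst) ?_
  rw [hrP, hrJ]
  exact H n hn0 X hOk

end Vale.Agent.P167.H685.LD
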