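import Vale.Agent.P167.H685.LD.Dob
import Vale.Agent.P167.H945.L.Gen

/-!
# P167, general `q`, block Q-LAM, [LD]: the lower bound for the Dobrushin squares
-/

namespace Vale.Agent.P167.H685.LD

open Vale.Agent.P167.FK (RSW)
open Vale.Agent.P167.H192.Q (SRSW)

/-- **[L-DOB]** -/
theorem l_dobF {θ : ℝ} (h0 : 0 < θ) (h1 : θ ≤ Real.pi / 3) (hR : RSW (2 * Real.cos θ))
    (hSR : SRSW (2 * Real.cos θ)) : H718.Lam.L_dob θ :=
  l_dob h0 h1 hR hSR (H945.L.l_gen h0 h1 hR hSR)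

end Vale.Agent.P167.H685.LD
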