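import Vale.Agent.P167.H685.LD.Conf

/-!
# P167, general `q`, block Q-LAM, [LD]: the event at the junction

`Ea e D a r`: there is no path of the colour `!e` around `a` in the box of radius `r`. It is the event
that no strand from the free to the wired part is inside of the box.
-/

namespace Vale.Agent.P167.H685.LD

open Finset Relation Vale.Agent.P145.FB
open Vale.Agent.P167 Vale.Agent.P167.BR Vale.Agent.P167.FK
open Vale.Agent.P167.E6 (IsPolygon Encloses face)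
open Vale.Agent.P167.H632 (cs pr)
open Vale.Agent.P167.H718 (IsXY)
open Vale.Agent.P167.QX (lo hi exists_xy lo_xy hi_xy)
open Vale.Agent.P167.H318 (st)
open Vale.Agent.P167.H704.Q (bk bk_par)
open Vale.Agent.P167.H685.Q.Det (strand_path cor_bk)
open Vale.Agent.P167.FKA (Cor)

variable {n k : ℕ} {q : ZMod n → ℤ × ℤ} {D : Finset (ℤ × ℤ)} {R ρ r : ℤ} {ω : Cfg} {A : Finset Ed}
  {e f : Bool} {m1 m2 x y : ℕ} {s t a : ℤ × ℤ}

/-- **The event at the junction.** -/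
def Ea (e : Bool) (D : Finset (ℤ × ℤ)) (a : ℤ × ℤ) (r : ℤ) : Set Cfg :=
  {ω | ∀ s t : ℤ × ℤ, s.2 = a.2 → s.1 < a.1 → t.2 = a.2 → a.1 < t.1 → (s.1 + s.2) % 2 = pr (!e) →
    ¬ PConn (cs (!e) ω ∩ ↑(D ∩ Bq a r)) Set.univ s t}

theorem Bq_mono {a : ℤ × ℤ} {r r' : ℤ} (h : r ≤ r') : Bq a r ⊆ Bq a r' := by
  intro v hv
  rw [mem_Bq] at *
  omega

theorem Ea_anti (h : ρ ≤ r) : Ea e D a r ⊆ Ea e D a ρ := by
  intro ω hω s t h1 h2 h3 h4 h5 h6
  refine hω s t h1 h2 h3 h4 h5 (h6.mono ?_ subset_rfl)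
  rintro v ⟨hv, hv'⟩
  have := Finset.mem_inter.1 (Finset.mem_coe.1 hv')
  exact ⟨hv, Finset.mem_coe.2 (Finset.mem_inter.2 ⟨this.1, Bq_mono h this.2⟩)⟩

/-- more squares of the colour `e` -/
theorem Ea_up {ω ω' : Cfg} (h : ∀ v ∈ D, v ∈ Bq a r → ω v = e → ω' v = e) (hω : ω ∈ Ea e D a r) :
    ω' ∈ Ea e D a r := by
  intro s t h1 h2 h3 h4 h5 h6
  refine hω s t h1 h2 h3 h4 h5 (h6.mono ?_ subset_rfl)
  rintro v ⟨hv, hv'⟩
  have hm := Finset.mem_inter.1 (Finset.mem_coe.1 hv')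
  refine ⟨?_, hv'⟩
  have hv1 : ω' v = !e := hv
  show ω v = !e
  by_contra hne
  have h7 : ω v = e := by cases e <;> simpa using hne
  have h8 := h v hm.1 hm.2 h7
  rw [h8] at hv1
  cases e <;> simp at hv1

theorem Ea_congr {ω ω' : Cfg} (h : ∀ v ∈ D, v ∈ Bq a r → ω v = ω' v) :
    ω ∈ Ea e D a r ↔ ω' ∈ Ea e D a r :=
  ⟨fun h1 => Ea_up (fun v hv hv' h2 => by rw [← h v hv hv', h2]) h1,
    fun h1 => Ea_up (fun v hv hv' h2 => by rw [h v hv hv', h2]) h1⟩

/-- the ends of a path are corners of its squares -/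
theorem end_cor {G : Set (ℤ × ℤ)} (h : PConn G Set.univ s t) (hne : s ≠ t) :
    ∃ v ∈ G, Cor v t := by
  obtain ⟨-, h⟩ := h
  rcases h.cases_tail with h1 | ⟨c, -, h2⟩
  · exact absurd h1.symm hne
  · obtain ⟨⟨s1, s2, s3⟩, -⟩ := h2
    exact ⟨_, s3, by dsimp only; omega, by dsimp only; omega⟩

theorem face_cor (v : ℤ × ℤ) (r : Fin 4) : Cor (face v r) v := by
  obtain ⟨a, b⟩ := v
  have f0 : face (a, b) 0 = (a + 0, b + 0) := rfl
  have f1 : face (a, b) 1 = (a + -1, b + 0) := rfl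
  have f2 : face (a, b) 2 = (a + -1, b + -1) := rfl
  have f3 : face (a, b) 3 = (a + 0, b + -1) := rfl
  have hr : r = 0 ∨ r = 1 ∨ r = 2 ∨ r = 3 := by fin_cases r <;> simp
  unfold Cor
  rcases hr with rfl | rfl | rfl | rfl
  · rw [f0]; simp
  · rw [f1]; simp
  · rw [f2]; simp
  · rw [f3]; simp

section

variable (hq : IsPolygon q) (hD : Encloses q D)

include hq hD in
/-- **Boundary sites of the window.** -/
theorem JW.near (hW : JW q D k R) {z : ℕ} (hz : z < n)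
    (h : nm (q (z : ZMod n) - q (k : ZMod n)) ≤ R - 1) :
    (q (z : ZMod n)).2 = (q (k : ZMod n)).2 ∧
      (z : ℤ) = k + ((q (z : ZMod n)).1 - (q (k : ZMod n)).1) := by
  have h1 := (hD (q (z : ZMod n)) (E2.ro q (z : ZMod n))).1 ⟨_, rfl, E2.ro_spec hq _⟩
  have c1 := face_cor (q (z : ZMod n)) (E2.ro q (z : ZMod n))
  have c2 := face_cor (q (z : ZMod n)) (E2.ro q (z : ZMod n) - 1)
  rw [nm_le] at h
  simp only [Prod.fst_sub, Prod.snd_sub] at h
  obtain ⟨c11, c12⟩ := c1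
  obtain ⟨c21, c22⟩ := c2
  have h2 := (hW.dom _ (nm_le.2 (by
    simp only [Prod.fst_sub, Prod.snd_sub]
    omega))).1 h1.1
  have h3 : ¬ (q (k : ZMod n)).2 ≤ (face (q (z : ZMod n)) (E2.ro q (z : ZMod n) - 1)).2 :=
    fun h4 => h1.2 ((hW.dom _ (nm_le.2 (by
      simp only [Prod.fst_sub, Prod.snd_sub]
      omega))).2 h4)
  have h4 : (q (z : ZMod n)).2 = (q (k : ZMod n)).2 := by omega
  refine ⟨h4, ?_⟩
  obtain ⟨j, j1, j2, j3⟩ := hW.site h4 (by rw [abs_le]; omega)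
  have := H718.cast_inj hz j3 (hq.2.1 j2.symm)
  omega

include hq in
/-- the outer square of a side of the window -/
theorem JW.side' (hW : JW q D k R) {j : ℕ} (h1 : (k : ℤ) - R ≤ j) (h2 : (j : ℤ) + 1 ≤ k + R) :
    (hdv (be q (j : ZMod n))).1 = (q (k : ZMod n)).1 + (j - k) ∧
      ((hdv (be q (j : ZMod n))).2 = (q (k : ZMod n)).2 ∨
        (hdv (be q (j : ZMod n))).2 = (q (k : ZMod n)).2 - 1) := by
  have e1 := hW.idx j h1 (by omega)
  have e2 := hW.idx (j + 1) (by push_cast; omega) (by push_cast; omega)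
  push_cast at e2
  set v := hdv (be q (j : ZMod n)) with hvd
  have c1 : Cor v (q (j : ZMod n)) ∧ Cor v (q ((j : ZMod n) + 1)) := by
    rcases be_sides hq (j : ZMod n) with ⟨h3, h4⟩ | ⟨h3, h4⟩
    · rw [← h3, ← h4]
      exact ⟨cor_ls _, cor_rs _⟩
    · rw [← h3, ← h4]
      exact ⟨cor_rs _, cor_ls _⟩
  obtain ⟨⟨c1, c2⟩, c3, c4⟩ := c1
  rw [e1] at c1 c2
  rw [e2] at c3 c4
  dsimp only at c1 c2 c3 c4
  omega

omit hD in
include hq in
/-- the site of the colour `f` of a side -/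
theorem bk_side (f : Bool) (z : ℕ) : ∃ z' : ℕ, (z' = z ∨ z' = z + 1) ∧
    bk f (be q (z : ZMod n)) = q (z' : ZMod n) := by
  rcases be_sides hq (z : ZMod n) with ⟨h3, h4⟩ | ⟨h3, h4⟩
  · cases f
    · exact ⟨z + 1, Or.inr rfl, by push_cast; exact h4⟩
    · exact ⟨z, Or.inl rfl, h3⟩
  · cases f
    · exact ⟨z, Or.inl rfl, h3⟩
    · exact ⟨z + 1, Or.inr rfl, by push_cast; exact h4⟩

include hq hD in
/-- **the side of colour `f` of a strand**: a path in the squares of the strand -/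
theorem side_path (f : Bool) (hA : A ∈ pcs ω D) (hxy : IsXY q A x y) {G : Finset (ℤ × ℤ)}
    (hG : ∀ e ∈ A, hdv e ∈ D → hdv e ∈ G) :
    PConn (cs f ω ∩ ↑(D ∩ G)) Set.univ (bk f (be q (x : ZMod n))) (bk f (be q (y : ZMod n))) := by
  obtain ⟨-, -, -, b4⟩ := be_even hq hD hxy.2.2.2.2.1
  obtain ⟨K, hK, hKD⟩ := run_entry hA hxy.2.2.1 b4 hxy.2.2.2.1
  have hmem : ∀ j ≤ K, st (be q (x : ZMod n)) ω j ∈ A := by
    intro j hj
    have hr : Run ω D (be q (x : ZMod n)) j (st (be q (x : ZMod n)) ω j) :=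
      ⟨rfl, fun i hi => hKD i (by omega)⟩
    exact (mem_of_run hA hr).1 hxy.2.2.1
  have h1 := strand_path (b := f) (ξ := ω) (g := be q (x : ZMod n)) (N := K) (A := D ∩ G)
    fun j hj => Finset.mem_inter.2 ⟨hKD j hj, hG _ (hmem j hj.le) (hKD j hj)⟩
  rwa [hK] at h1

include hq hD in
/-- **No strand from the free to the wired part in the box.** -/
theorem noFw_of_Ea (hW : JW q D k R) (hrR : r + 2 ≤ R)
    (hpar : ((q (k : ZMod n)).1 + (q (k : ZMod n)).2) % 2 = pr e)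
    (hω : ω ∈ Ea e D (q (k : ZMod n)) r) (hA : A ∈ pcs ω D) (hl : ¬ IsLp D A)
    (hin : ∀ g ∈ A, hdv g ∈ Bq (q (k : ZMod n)) r) : ¬ (lo q A < k ∧ k ≤ hi q A) := by
  rintro ⟨hlo, hhi⟩
  obtain ⟨x, y, hxy⟩ := exists_xy hq hD hA hl
  rw [lo_xy hq hD hA hxy] at hlo
  rw [hi_xy hq hD hA hxy] at hhi
  have hprf : pr e + pr (!e) = 1 := by cases e <;> decide
  have hp0 : pr e = 0 ∨ pr e = 1 := by cases e <;> decide
  -- positions of the sides of `A`
  have hpos : ∀ z : ℕ, z < n → be q (z : ZMod n) ∈ A → |(z : ℤ) - k| ≤ r + 1 := by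
    intro z hz hzA
    have h1 := mem_Bq.1 (hin _ hzA)
    have h2 : Cor (hdv (be q (z : ZMod n))) (q (z : ZMod n)) := by
      rcases be_sides hq (z : ZMod n) with ⟨h3, -⟩ | ⟨h3, -⟩
      · rw [← h3]
        exact cor_ls _
      · rw [← h3]
        exact cor_rs _
    obtain ⟨h3, h4⟩ := h2
    have h5 := hW.near hq hD hz (nm_le.2 (by
      simp only [Prod.fst_sub, Prod.snd_sub]
      omega))
    rw [abs_le]
    omega
  have hpath := side_path hq hD (!e) hA hxy (G := Bq (q (k : ZMod n)) r) fun g hg _ => hin g hg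
  obtain ⟨x', hx1, hx2⟩ := bk_side hq (!e) x
  obtain ⟨y', hy1, hy2⟩ := bk_side hq (!e) y
  have px := hpos x hxy.1 hxy.2.2.1
  have py := hpos y hxy.2.1 hxy.2.2.2.1
  rw [abs_le] at px py
  have bx := bk_par (!e) (be q (x : ZMod n))
  have by' := bk_par (!e) (be q (y : ZMod n))
  rw [hx2] at hpath bx
  rw [hy2] at hpath by'
  have hxk : x' ≠ k := by
    rintro rfl
    omega
  have hyk : y' ≠ k := by
    rintro rfl
    omega
  have ex := hW.idx x' (by omega) (by omega)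
  have ey := hW.idx y' (by omega) (by omega)
  rcases Nat.lt_or_ge x y with hlt | hge
  · rw [min_eq_left hlt.le] at hlo
    rw [max_eq_right hlt.le] at hhi
    refine hω (q (x' : ZMod n)) (q (y' : ZMod n)) ?_ ?_ ?_ ?_ bx hpath
    · rw [ex]
    · rw [ex]; dsimp only; omega
    · rw [ey]
    · rw [ey]; dsimp only; omega
  · rw [min_eq_right hge] at hlo
    rw [max_eq_left hge] at hhi
    refine hω (q (y' : ZMod n)) (q (x' : ZMod n)) ?_ ?_ ?_ ?_ by' hpath.symm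
    · rw [ey]
    · rw [ey]; dsimp only; omega
    · rw [ex]
    · rw [ex]; dsimp only; omega

include hq hD in
/-- **A path around the junction forces a strand from the free to the wired part in the box.** -/
theorem Ea_of_noFw (hW : JW q D k R) (hr1 : 1 ≤ r) (hrR : r ≤ R)
    (hpar : ((q (k : ZMod n)).1 + (q (k : ZMod n)).2) % 2 = pr e)
    (h : ∀ A ∈ pcs ω D, ¬ IsLp D A → (∀ g ∈ A, hdv g ∈ Bq (q (k : ZMod n)) r) →
      ¬ (lo q A < k ∧ k ≤ hi q A)) :
    ω ∈ Ea e D (q (k : ZMod n)) (r - 1) := by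
  classical
  intro s t hs1 hs2 ht1 ht2 hsp hst
  have hlt := hW.lt
  have hgt := hW.gt
  have hprf : pr e + pr (!e) = 1 := by cases e <;> decide
  have hp0 : pr e = 0 ∨ pr e = 1 := by cases e <;> decide
  have hne : s ≠ t := by
    rintro rfl
    omega
  obtain ⟨v1, hv1, c1⟩ := end_cor hst hne
  obtain ⟨v2, hv2, c2⟩ := end_cor hst.symm hne.symm
  have b1 := mem_Bq.1 (Finset.mem_inter.1 (Finset.mem_coe.1 hv1.2)).2
  have b2 := mem_Bq.1 (Finset.mem_inter.1 (Finset.mem_coe.1 hv2.2)).2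
  obtain ⟨c11, c12⟩ := c1
  obtain ⟨c21, c22⟩ := c2
  obtain ⟨m1, e1, e2, e3⟩ := hW.site hs1 (by rw [abs_le]; omega)
  obtain ⟨m2, f1, f2, f3⟩ := hW.site ht1 (by rw [abs_le]; omega)
  rw [← e2, ← f2] at hst
  rw [← e2] at hsp
  -- potentials
  have hex : ∀ A : Finset Ed, ∃ u : ℤ × ℤ → ℤ, A ∈ pcs ω D → PotD D A u := by
    intro A
    by_cases hA : A ∈ pcs ω D
    · obtain ⟨u, hu⟩ := BR.exists_pot hq hD hA
      exact ⟨u, fun _ => hu⟩
    · exact ⟨fun _ => 0, fun h => absurd h hA⟩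
  choose U hU using hex
  have hU' : ∀ A ∈ pcs ω D, PotD D A (U A) := fun A hA => hU A hA
  obtain ⟨A, hA, hAne⟩ : ∃ A ∈ pcs ω D, U A (q (m1 : ZMod n)) ≠ U A (q (k : ZMod n)) := by
    by_contra hcon
    push Not at hcon
    have s1 := sum_bd hq hD hU' m1
    have s2 := sum_bd hq hD hU' k
    have s3 : ∑ A ∈ pcs ω D, U A (q (m1 : ZMod n)) = ∑ A ∈ pcs ω D, U A (q (k : ZMod n)) :=
      sum_congr rfl hcon
    simp only [Int.even_iff] at s1 s2
    split_ifs at s1 s2 <;> omega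
  have hu := hU' A hA
  have hl : ¬ IsLp D A := by
    intro hl
    have h3 : ∀ z : ℕ, be q (z : ZMod n) ∉ A := by
      intro z hz
      rcases be_bd hq hD (z : ZMod n) with ⟨_, h4⟩ | ⟨_, h4⟩
      · exact h4 (hl.tl hA hz)
      · exact h4 (hl _ hz)
    exact hAne (pot_arc hq hD hu (i := m1) (j := k) (by omega) fun m _ _ => h3 m).symm
  obtain ⟨x, y, hxy⟩ := exists_xy hq hD hA hl
  have p := fun {m : ℕ} (hm : m ≤ n) => H718.pot_bd hq hD hA hxy hu hm
  have ea := p (m := m1) e3.le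
  have eb := p (m := k) (by omega)
  have ec := p (m := m2) f3.le
  have ed := pot_path hA hu (hst.mono (Set.inter_subset_inter_right _ (by
    intro v hv
    exact (Finset.mem_inter.1 (Finset.mem_coe.1 hv)).1)) subset_rfl) hsp
  have hxyne := hxy.ne
  have hloc : (m1 ≤ x ∧ x < k ∧ k ≤ y ∧ y < m2) ∨ (m1 ≤ y ∧ y < k ∧ k ≤ x ∧ x < m2) := by
    split_ifs at ea eb ec <;> omega
  refine h A hA hl (fun g hg => ?_) ?_
  · by_cases hgD : hdv g ∈ D
    · exact Bq_mono (by omega) (confine hq hD hW (by omega) (by omega) (by omega) (by omega) hst hsp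
        hA hxy (by omega) (by omega) g hg hgD)
    · obtain ⟨-, -, -, b4⟩ := be_odd hq hD hxy.2.2.2.2.2
      have h5 := exit_unique hA hg hxy.2.2.2.1 hgD b4
      rw [h5]
      obtain ⟨h6, h7⟩ := hW.side' hq (j := y) (by omega) (by omega)
      rw [mem_Bq, h6]
      omega
  · rw [lo_xy hq hD hA hxy, hi_xy hq hD hA hxy]
    rcases hloc with h8 | h8
    · exact ⟨lt_of_le_of_lt (min_le_left _ _) h8.2.1, le_trans h8.2.2.1 (le_max_right _ _)⟩
    · exact ⟨lt_of_le_of_lt (min_le_right _ _) h8.2.1, le_trans h8.2.2.1 (le_max_left _ _)⟩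

end

end Vale.Agent.P167.H685.LD
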