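import Vale.Agent.P167.H718.Par6
import Vale.Agent.P167.H685.Q.Det1

/-!
# P167, general `q`, block Q-LAM, [LD]: interlacing paths of both colours

Primal paths `q a - q c` and dual paths `q b - q d` with `a < b < c < d` do not exist.
-/

namespace Vale.Agent.P167.H685.LD

open Finset Relation Vale.Agent.P145.FB
open Vale.Agent.P167 Vale.Agent.P167.BR Vale.Agent.P167.FK
open Vale.Agent.P167.E6 (IsPolygon Encloses)
open Vale.Agent.P167.H632 (cs pr)
open Vale.Agent.P167.H718 (IsXY)
open Vale.Agent.P167.QX (lo hi exists_xy)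

variable {n : ℕ} {q : ZMod n → ℤ × ℤ} {D : Finset (ℤ × ℤ)} {ω : Cfg} {A : Finset Ed} {e : Bool}
  {s t : ℤ × ℤ}

/-- Potentials are constant along paths. -/
theorem pot_path {u : ℤ × ℤ → ℤ} (hA : A ∈ pcs ω D) (hu : PotD D A u)
    (h : PConn (cs e ω ∩ ↑D) Set.univ s t) (hs : (s.1 + s.2) % 2 = pr e) : u s = u t := by
  obtain ⟨-, h⟩ := h
  have key : u s = u t ∧ (t.1 + t.2) % 2 = pr e := by
    induction h with
    | refl => exact ⟨rfl, hs⟩
    | @tail a c _ hac ih =>
      obtain ⟨h1, h2⟩ := ih
      have h3 := hac.1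
      refine ⟨h1.trans (pot_stp hA hu ?_), ?_⟩
      · cases e
        · right
          refine ⟨fun hev => ?_, ?_⟩
          · rw [Int.even_iff] at hev
            have : pr false = 1 := rfl
            omega
          · refine ⟨h3.1, h3.2.1, ?_, h3.2.2.2⟩
            have : ω _ = false := h3.2.2.1
            simp [op, this]
        · left
          refine ⟨?_, h3.1, h3.2.1, h3.2.2.1, h3.2.2.2⟩
          rw [Int.even_iff]
          exact h2
      · have h4 := h3.1
        have h5 := h3.2.1
        omega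
  exact key.1

section

variable (hq : IsPolygon q) (hD : Encloses q D)
include hq hD

/-- The parities of consecutive boundary sites are different. -/
theorem par_step (j : ZMod n) : Even ((q (j + 1)).1 + (q (j + 1)).2) ↔
    ¬ Even ((q j).1 + (q j).2) := by
  constructor
  · intro h1 h2
    have h3 := (be_even hq hD h2).2.1
    rw [← h3] at h1
    exact BR.odd_rs _ h1
  · intro h2
    have h3 := (be_odd hq hD h2).2.1
    rw [← h3]
    exact BR.even_ls _

theorem par_add (j m : ℕ) : Even ((q ((j + m : ℕ) : ZMod n)).1 + (q ((j + m : ℕ) : ZMod n)).2) ↔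
    (Even ((q (j : ZMod n)).1 + (q (j : ZMod n)).2) ↔ Even m) := by
  induction m with
  | zero => simp
  | succ m ih =>
    have h1 := par_step hq hD ((j + m : ℕ) : ZMod n)
    have h2 : (((j + m : ℕ) : ZMod n) + 1) = ((j + (m + 1) : ℕ) : ZMod n) := by push_cast; ring
    rw [h2] at h1
    rw [h1, ih, Nat.even_add_one]
    tauto

/-- The sum of the potentials at the boundary sites. -/
theorem sum_bd {U : Finset Ed → ℤ × ℤ → ℤ} (hU : ∀ A ∈ pcs ω D, PotD D A (U A)) (j : ℕ) :
    ∑ A ∈ pcs ω D, U A (q (j : ZMod n)) = ∑ A ∈ pcs ω D, U A (q 0) +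
      (if Even ((q (j : ZMod n)).1 + (q (j : ZMod n)).2) then 1 else 0) -
      (if Even ((q 0).1 + (q 0).2) then 1 else 0) := by
  induction j with
  | zero => simp
  | succ j ih =>
    have h1 := sum_pot hU (fun _ => 1) (be_mem hq hD (j : ZMod n))
    simp only [one_mul] at h1
    have h2 := par_step hq hD (j : ZMod n)
    have h3 : ((j + 1 : ℕ) : ZMod n) = (j : ZMod n) + 1 := by push_cast; rfl
    rw [h3]
    by_cases hev : Even ((q (j : ZMod n)).1 + (q (j : ZMod n)).2)
    · obtain ⟨h4, h5, -⟩ := be_even hq hD hev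
      rw [h4, h5] at h1
      rw [if_neg (fun h => (h2.1 h) hev)]
      rw [if_pos hev] at ih
      omega
    · obtain ⟨h4, h5, -⟩ := be_odd hq hD hev
      rw [h4, h5] at h1
      rw [if_pos (h2.2 hev)]
      rw [if_neg hev] at ih
      omega

/-- **Interlacing paths of different colours do not exist.** -/
theorem interlace {a b c d : ℕ} (hab : a < b) (hbc : b < c) (hcd : c < d) (hd : d ≤ n)
    (h1 : PConn (cs e ω ∩ ↑D) Set.univ (q (a : ZMod n)) (q (c : ZMod n)))
    (ha : ((q (a : ZMod n)).1 + (q (a : ZMod n)).2) % 2 = pr e)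
    (h2 : PConn (cs (!e) ω ∩ ↑D) Set.univ (q (b : ZMod n)) (q (d : ZMod n)))
    (hb : ((q (b : ZMod n)).1 + (q (b : ZMod n)).2) % 2 = pr (!e)) : False := by
  classical
  have hex : ∀ A : Finset Ed, ∃ u : ℤ × ℤ → ℤ, A ∈ pcs ω D → PotD D A u := by
    intro A
    by_cases hA : A ∈ pcs ω D
    · obtain ⟨u, hu⟩ := BR.exists_pot hq hD hA
      exact ⟨u, fun _ => hu⟩
    · exact ⟨fun _ => 0, fun h => absurd h hA⟩
  choose U hU using hex
  have hU' : ∀ A ∈ pcs ω D, PotD D A (U A) := fun A hA => hU A hA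
  -- every piece has the same value at `q b` and `q c`
  have key : ∀ A ∈ pcs ω D, U A (q (b : ZMod n)) = U A (q (c : ZMod n)) := by
    intro A hA
    have hu := hU' A hA
    have e1 := pot_path hA hu h1 ha
    have e2 := pot_path hA hu h2 hb
    by_cases hl : IsLp D A
    · have h3 : ∀ z : ℕ, be q (z : ZMod n) ∉ A := by
        intro z hz
        rcases be_bd hq hD (z : ZMod n) with ⟨_, h4⟩ | ⟨_, h4⟩
        · exact h4 (hl.tl hA hz)
        · exact h4 (hl _ hz)
      exact (pot_arc hq hD hu hbc.le fun m _ _ => h3 m).symm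
    · obtain ⟨x, y, hxy⟩ := exists_xy hq hD hA hl
      have p := fun {m : ℕ} (hm : m ≤ n) => H718.pot_bd hq hD hA hxy hu hm
      have ea := p (m := a) (by omega)
      have eb := p (m := b) (by omega)
      have ec := p (m := c) (by omega)
      have ed := p (m := d) hd
      have hne := hxy.ne
      split_ifs at ea eb ec ed <;> omega
  have s1 := sum_bd hq hD hU' b
  have s2 := sum_bd hq hD hU' c
  have s3 : ∑ A ∈ pcs ω D, U A (q (b : ZMod n)) = ∑ A ∈ pcs ω D, U A (q (c : ZMod n)) :=
    sum_congr rfl key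
  -- the parities
  have hc : ((q (c : ZMod n)).1 + (q (c : ZMod n)).2) % 2 = pr e := by
    have := h1.parity
    omega
  have hpr : pr e + pr (!e) = 1 := by cases e <;> decide
  have p0 : pr e = 0 ∨ pr e = 1 := by cases e <;> decide
  simp only [Int.even_iff] at s1 s2
  split_ifs at s1 s2 <;> omega

end

end Vale.Agent.P167.H685.LD
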