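import Vale.Agent.P167.H685.LD.Zig
import Vale.Agent.P167.H704.Rc

/-!
# P167, general `q`, block Q-LAM, [LD]: paths of one colour with squares in different sets meet
-/

namespace Vale.Agent.P167.H685.LD

open Finset Relation Vale.Agent.P145.FB Vale.Agent.P153 Vale.Agent.P153.Topo
open Vale.Agent.P167 Vale.Agent.P167.FK
open Vale.Agent.P167.H632 (cs pr)
open Vale.Agent.P167.H704 (cut2 row_inc col_inc)
open Vale.Agent.P167.FKA (Cor)

/-- a vertical and a horizontal crossing of a rectangle have a common site -/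
theorem join2 {F G : Set (ℤ × ℤ)} {e a b c d : ℤ} {s t s' t' : ℤ × ℤ}
    (h : PConn F (Rect a b c d) s t) (hs : s.1 = a) (ht : t.1 = b) (he : (s.1 + s.2) % 2 = e)
    (h' : PConn G (Rect a b c d) s' t') (hs' : s'.2 = c) (ht' : t'.2 = d)
    (he' : (s'.1 + s'.2) % 2 = e) :
    ∃ z, PConn F (Rect a b c d) s z ∧ PConn G (Rect a b c d) s' z := by
  have k := lift h he
  have k' := lift h' he'
  set X := Sc e F ∩ Rect (2 * a) (2 * b) (2 * c) (2 * d) with hX
  set Y := Sc e G ∩ Rect (2 * a) (2 * b) (2 * c) (2 * d) with hY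
  obtain ⟨z, hz, hz'⟩ := cross (A := {z | Conn X (2 * s.1, 2 * s.2) z})
    (B := {z | Conn Y (2 * s'.1, 2 * s'.2) z}) (a := 2 * a) (b := 2 * b) (c := 2 * c) (d := 2 * d)
    (fun z hz => (show Conn X _ z from hz).right_mem.2) (fun z hz => (show Conn Y _ z from hz).right_mem.2)
    (x := (2 * s.1, 2 * s.2)) (x' := (2 * t.1, 2 * t.2)) (y := (2 * s'.1, 2 * s'.2))
    (y' := (2 * t'.1, 2 * t'.2))
    ((Conn.of_closed k (Conn.refl k.left_mem) fun x y hx _ hy hxy => hx.tail hxy hy).mono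
      Set.inter_subset_right) (by dsimp only; omega) (by dsimp only; omega)
    ((Conn.of_closed k' (Conn.refl k'.left_mem) fun x y hx _ hy hxy => hx.tail hxy hy).mono
      Set.inter_subset_right) (by dsimp only; omega) (by dsimp only; omega)
  have kz : Conn X (2 * s.1, 2 * s.2) z := hz
  have kz' : Conn Y (2 * s'.1, 2 * s'.2) z := hz'
  have hn : ∀ u : ℤ × ℤ, ¬ Ctr (2 * u.1, 2 * u.2) := fun u => not_ctr_left (a := u.1) rfl
  have hst : ∀ u : ℤ × ℤ, st (2 * u.1, 2 * u.2) = u := by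
    intro u
    refine Prod.ext ?_ ?_ <;> simp only [st] <;> omega
  have p1 := proj (hn s) kz
  have p2 := proj (hn s') kz'
  rw [hst] at p1 p2
  by_cases hc : Ctr z
  · obtain ⟨w, w1, w2, w3, w4⟩ := p1.2 hc
    obtain ⟨w', w1', w2', w3', w4'⟩ := p2.2 hc
    have hzG : (z.1 / 2, z.2 / 2) ∈ G := by
      rcases kz'.right_mem.1 with h | h
      · exact h.2
      · exact absurd hc h.1
    by_cases hww : w' = w
    · exact ⟨w, w4, hww ▸ w4'⟩
    · exact ⟨w, w4, w4'.tail (step_of_corners hzG w1' w2' w1 w2 w3' w3 hww) w4.right_mem⟩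
  · exact ⟨st z, p1.1 hc, p2.1 hc⟩

/-- **A vertical path and a horizontal path of one colour have a common site.** -/
theorem meet2 {F G : Set (ℤ × ℤ)} {e a b c d a' b' c' d' : ℤ} {y y' w w' : ℤ × ℤ}
    (h : PConn G (Rect a b c' d') y y') (hy : y.2 ≤ c) (hy' : d ≤ y'.2) (he : (y.1 + y.2) % 2 = e)
    (h' : PConn F (Rect a' b' c d) w w') (hw : w.1 ≤ a) (hw' : b ≤ w'.1) (he' : (w.1 + w.2) % 2 = e)
    (hab : a ≤ b) (hcd : c ≤ d) :
    ∃ z, PConn G (Rect a b c' d') y z ∧ PConn F (Rect a' b' c d) w z := by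
  obtain ⟨z, z', k1, k2, k3, k4, -⟩ := cut2 (fun w => w.2) row_inc hcd h hy hy'
  obtain ⟨x, x', m1, m2, m3, m4, -⟩ := cut2 (fun w => w.1) col_inc hab h' hw hw'
  have hyR := h.left_mem
  have hy'R := h.right_mem
  have hwR := h'.left_mem
  have hw'R := h'.right_mem
  rw [mem_rect] at hyR hwR hy'R hw'R
  have k3' : PConn G (Rect a b c' d') y z := k3.mono subset_rfl Set.inter_subset_left
  have m3' : PConn F (Rect a' b' c d) w x := m3.mono subset_rfl Set.inter_subset_left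
  have k4' : PConn G (Rect a b c d) z z' := k4.mono subset_rfl (by
    rintro v ⟨hv1, hv2, hv3⟩
    rw [mem_rect] at hv1 ⊢
    omega)
  have m4' : PConn F (Rect a b c d) x x' := m4.mono subset_rfl (by
    rintro v ⟨hv1, hv2, hv3⟩
    rw [mem_rect] at hv1 ⊢
    omega)
  obtain ⟨p, j1, j2⟩ := join2 m4' m1 m2 (by rw [← m3'.parity, he']) k4' k1 k2
    (by rw [← k3'.parity, he])
  have hmax := h.left_mem
  refine ⟨p, k3'.trans (j2.mono subset_rfl ?_), m3'.trans (j1.mono subset_rfl ?_)⟩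
  · intro v hv
    rw [mem_rect] at hv ⊢
    omega
  · intro v hv
    rw [mem_rect] at hv ⊢
    omega

/-- upward zigzag -/
theorem zigU {G : Set (ℤ × ℤ)} {x y : ℤ} (m : ℕ) {s : ℤ × ℤ} (h1 : s.2 = y)
    (h2 : s.1 = x ∨ s.1 = x + 1) (h : ∀ y', y ≤ y' → y' < y + m → (x, y') ∈ G) :
    ∃ t : ℤ × ℤ, t.2 = y + m ∧ (t.1 = x ∨ t.1 = x + 1) ∧ PConn G Set.univ s t := by
  induction m with
  | zero => exact ⟨s, by simpa using h1, h2, PConn.refl (Set.mem_univ _)⟩
  | succ m ih =>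
    obtain ⟨t, t1, t2, t3⟩ := ih fun y' a b => h y' a (by push_cast; omega)
    have h3 := h (y + m) (by omega) (by push_cast; omega)
    rcases t2 with t2 | t2
    · refine ⟨(t.1 + 1, t.2 + 1), by push_cast; omega, Or.inr (by dsimp only; omega),
        t3.tail ⟨Or.inl rfl, Or.inl rfl, ?_⟩ (Set.mem_univ _)⟩
      have e : (min t.1 (t.1 + 1), min t.2 (t.2 + 1)) = (x, y + m) := by
        refine Prod.ext ?_ ?_ <;> dsimp only <;> omega
      rw [e]
      exact h3
    · refine ⟨(t.1 - 1, t.2 + 1), by push_cast; omega, Or.inl (by dsimp only; omega),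
        t3.tail ⟨Or.inr rfl, Or.inl rfl, ?_⟩ (Set.mem_univ _)⟩
      have e : (min t.1 (t.1 - 1), min t.2 (t.2 + 1)) = (x, y + m) := by
        refine Prod.ext ?_ ?_ <;> dsimp only <;> omega
      rw [e]
      exact h3

/-- the sites of a path stay in a region which contains the corners of the squares -/
theorem pconn_reg {F Rg : Set (ℤ × ℤ)} {s t : ℤ × ℤ} (h : PConn F Set.univ s t)
    (hF : ∀ v ∈ F, ∀ z, Cor v z → z ∈ Rg) (hs : s ∈ Rg) : PConn F Rg s t := by
  obtain ⟨-, h⟩ := h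
  induction h with
  | refl => exact PConn.refl hs
  | @tail b c _ hbc ih =>
    obtain ⟨⟨g1, g2, g3⟩, -⟩ := hbc
    exact ih.tail ⟨g1, g2, g3⟩ (hF _ g3 c ⟨by dsimp only; omega, by dsimp only; omega⟩)

/-- **A horizontal path which crosses the strip above the start and below the end of a vertical path is
joined to it.** The region of the vertical path is the strip `[xl, xr]`. -/
theorem conn_arc {F G : Set (ℤ × ℤ)} {e xl xr c d a' b' : ℤ} {y y' w w' : ℤ × ℤ}
    (h : PConn G Set.univ y y') (hG : ∀ v ∈ G, xl ≤ v.1 ∧ v.1 < xr) (hlt : xl < xr)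
    (hy1 : xl ≤ y.1 ∧ y.1 ≤ xr) (he : (y.1 + y.2) % 2 = e) (hc : c ≤ y.2) (hyy : y.2 < y'.2)
    (hd : y'.2 ≤ d)
    (h' : PConn F (Rect a' b' c d) w w') (hw : w.1 ≤ xl) (hw' : xr ≤ w'.1)
    (he' : (w.1 + w.2) % 2 = e)
    (hF : ∀ z, PConn F (Rect a' b' c d) w z → xl ≤ z.1 → z.1 ≤ xr → y.2 < z.2 ∧ z.2 < y'.2) :
    ∃ z, PConn G Set.univ y z ∧ PConn F (Rect a' b' c d) w z := by
  classical
  -- corners in the strip
  have hcolG : ∀ v : ℤ × ℤ, (xl ≤ v.1 ∧ v.1 < xr) → ∀ z, Cor v z → xl ≤ z.1 ∧ z.1 ≤ xr := by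
    intro v hv z hz
    obtain ⟨z1, -⟩ := hz
    omega
  set GV : Set (ℤ × ℤ) := {v | v ∈ G ∧ ∀ z, Cor v z → (z.1 + z.2) % 2 = e → PConn G Set.univ y z}
    with hGV
  set Hb : Set (ℤ × ℤ) := {v | (xl ≤ v.1 ∧ v.1 < xr) ∧ v.2 < y.2} with hHb
  set Ht : Set (ℤ × ℤ) := {v | (xl ≤ v.1 ∧ v.1 < xr) ∧ y'.2 ≤ v.2} with hHt
  set G' : Set (ℤ × ℤ) := GV ∪ (Hb ∪ Ht) with hG'
  have hG'col : ∀ v ∈ G', xl ≤ v.1 ∧ v.1 < xr := by
    rintro v (hv | hv | hv)
    · exact hG v hv.1
    · exact hv.1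
    · exact hv.1
  -- the vertical path in `GV`
  have hV : PConn GV Set.univ y y' := by
    have key : ∀ z, PConn G Set.univ y z → PConn GV Set.univ y z := by
      rintro z ⟨-, hz⟩
      induction hz with
      | refl => exact PConn.refl (Set.mem_univ _)
      | @tail b c hb hbc ih =>
        have hbP : PConn G Set.univ y b := ⟨trivial, hb⟩
        have hcP : PConn G Set.univ y c := hbP.tail hbc.1 (Set.mem_univ _)
        have p1 := hbP.parity
        have p2 := hcP.parity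
        obtain ⟨⟨g1, g2, g3⟩, -⟩ := hbc
        refine ih.tail ⟨g1, g2, g3, fun z hz hze => ?_⟩ (Set.mem_univ _)
        obtain ⟨z1, z2⟩ := hz
        dsimp only at z1 z2
        have hzz : z = b ∨ z = c := by
          have : (z.1 = b.1 ∧ z.2 = b.2) ∨ (z.1 = c.1 ∧ z.2 = c.2) := by omega
          rcases this with h | h
          · exact Or.inl (Prod.ext h.1 h.2)
          · exact Or.inr (Prod.ext h.1 h.2)
        rcases hzz with h | h
        · rw [h]; exact hbP
        · rw [h]; exact hcP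
    exact key _ h
  -- bottom
  obtain ⟨x0, hx0, hx1, hx2⟩ : ∃ x0 : ℤ, (y.1 = x0 ∨ y.1 = x0 + 1) ∧ xl ≤ x0 ∧ x0 < xr := by
    by_cases h1 : y.1 < xr
    · exact ⟨y.1, Or.inl rfl, hy1.1, h1⟩
    · exact ⟨y.1 - 1, Or.inr (by ring), by omega, by omega⟩
  obtain ⟨b0, b1, b2, b3⟩ := zigV (G := G') (x := x0) (y := c) (y.2 - c).toNat (s := y)
    (by rw [Int.toNat_of_nonneg (by omega)]; ring) hx0 fun y'' g1 g2 => by
      rw [Int.toNat_of_nonneg (by omega)] at g2
      exact Or.inr (Or.inl ⟨⟨hx1, hx2⟩, by dsimp only; omega⟩)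
  -- top
  have hy'1 : xl ≤ y'.1 ∧ y'.1 ≤ xr := by
    have h3 := pconn_reg (Rg := {z | xl ≤ z.1 ∧ z.1 ≤ xr}) h (fun v hv z hz => hcolG v (hG v hv) z hz)
      hy1
    exact h3.right_mem
  obtain ⟨x3, hx3, hx4, hx5⟩ : ∃ x0 : ℤ, (y'.1 = x0 ∨ y'.1 = x0 + 1) ∧ xl ≤ x0 ∧ x0 < xr := by
    by_cases h1 : y'.1 < xr
    · exact ⟨y'.1, Or.inl rfl, hy'1.1, h1⟩
    · exact ⟨y'.1 - 1, Or.inr (by ring), by omega, by omega⟩
  obtain ⟨t0, t1, t2, t3⟩ := zigU (G := G') (x := x3) (y := y'.2) (d - y'.2).toNat (s := y')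
    rfl hx3 fun y'' g1 g2 => Or.inr (Or.inr ⟨⟨hx4, hx5⟩, g1⟩)
  rw [Int.toNat_of_nonneg (by omega)] at t1
  have hfull : PConn G' Set.univ b0 t0 :=
    (b3.symm.trans (hV.mono Set.subset_union_left subset_rfl)).trans t3
  have hfull' := pconn_reg (Rg := {z | xl ≤ z.1 ∧ z.1 ≤ xr}) hfull
    (fun v hv z hz => hcolG v (hG'col v hv) z hz) ⟨by omega, by omega⟩
  -- a rectangle which contains the path
  obtain ⟨c', d', hcd'⟩ : ∃ c' d', PConn G' (Rect xl xr c' d') b0 t0 := by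
    clear t1 t2 t3
    obtain ⟨h0, hp⟩ := hfull'
    clear hfull
    induction hp with
    | refl => exact ⟨b0.2, b0.2, PConn.refl (by rw [mem_rect]; exact ⟨h0.1, h0.2, le_rfl, le_rfl⟩)⟩
    | @tail u v hu huv ih =>
      obtain ⟨c', d', hcd⟩ := ih
      have hv := huv.2
      have hv1 : xl ≤ v.1 ∧ v.1 ≤ xr := hv
      refine ⟨min c' v.2, max d' v.2, (hcd.mono subset_rfl ?_).tail huv.1 ?_⟩
      · intro z hz
        rw [mem_rect] at hz ⊢
        omega
      · rw [mem_rect]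
        omega
  have heb : (b0.1 + b0.2) % 2 = e := by
    have := b3.parity
    omega
  obtain ⟨z, z1, z2⟩ := meet2 (e := e) hcd' (by omega) (by omega) heb h' hw hw' he' hlt.le
    (by omega)
  refine ⟨z, ?_, z2⟩
  have hzr := z1.right_mem
  rw [mem_rect] at hzr
  have hz3 := hF z z2 hzr.1 hzr.2.1
  -- the sites reached from the bottom
  have key : ∀ z, PConn G' (Rect xl xr c' d') b0 z → (z.2 ≤ y.2 ∨ y'.2 ≤ z.2 ∨ PConn G Set.univ y z) := by
    rintro z ⟨-, hz⟩
    induction hz with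
    | refl => exact Or.inl (by omega)
    | @tail b c hb hbc ih =>
      have hbP : PConn G' (Rect xl xr c' d') b0 c := PConn.tail ⟨hcd'.left_mem, hb⟩ hbc.1 hbc.2
      have p1 := hbP.parity
      obtain ⟨⟨g1, g2, g3⟩, -⟩ := hbc
      rcases g3 with g3 | g3 | g3
      · right; right
        exact g3.2 c ⟨by dsimp only; omega, by dsimp only; omega⟩ (by omega)
      · left
        have := g3.2
        dsimp only at this
        omega
      · right; left
        have := g3.2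
        dsimp only at this
        omega
  rcases key z z1 with h1 | h1 | h1
  · omega
  · omega
  · exact h1

end Vale.Agent.P167.H685.LD
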