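import Vale.Agent.P167.H685.LD.Meet
import Vale.Agent.P167.H192.Q.ArcQ

/-!
# P167, general `q`, block Q-LAM, [LD]: arcs at a horizontal side above the domain

Mirror image of the arcs of `H192.ArcQ` at the level `c`.
-/

set_option linter.unusedSimpArgs false

namespace Vale.Agent.P167.H685.LD

open Finset Relation Vale.Agent.P145.FB
open Vale.Agent.P167 Vale.Agent.P167.FK Vale.Agent.P167.FKA
open Vale.Agent.P167.H632 (cs pr IncC)
open Vale.Agent.P167.H192 (TA.dq TA.dF TA.mem_dF TA.Pw)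
open Vale.Agent.P167.H192.Q (SRSW)
open Vale.Agent.P167.H192.ArcQ (ArcE inc_ArcE arcE_ge pw_pconn)
open Vale.Agent.P167.H704.Q (cst good_cst)

/-- Mirror image of the squares at the level `c` of sites. -/
def myV (c : ℤ) : ℤ × ℤ ≃ ℤ × ℤ where
  toFun v := (v.1, 2 * c - 1 - v.2)
  invFun v := (v.1, 2 * c - 1 - v.2)
  left_inv := by intro v; simp
  right_inv := by intro v; simp

/-- Mirror image of the medial edges. -/
def myE (c : ℤ) : Ed ≃ Ed where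
  toFun
    | Sum.inl v => Sum.inl (v.1, 2 * c - 1 - v.2)
    | Sum.inr v => Sum.inr (v.1, 2 * c - 2 - v.2)
  invFun
    | Sum.inl v => Sum.inl (v.1, 2 * c - 1 - v.2)
    | Sum.inr v => Sum.inr (v.1, 2 * c - 2 - v.2)
  left_inv := by rintro (v | v) <;> simp
  right_inv := by rintro (v | v) <;> simp

theorem syR_my (c : ℤ) (ω : Cfg) : SyR (myE c) (myV c) ω (ω ∘ fun v => (v.1, 2 * c - 1 - v.2)) where
  n := by
    have k1 : ∀ x : ℤ, 2 * c - 1 - (x + 1) = 2 * c - 2 - x := fun x => by ring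
    have k2 : ∀ x : ℤ, 2 * c - 1 - x - 1 = 2 * c - 2 - x := fun x => by ring
    have k3 : ∀ x : ℤ, 2 * c - 2 - x + 1 = 2 * c - 1 - x := fun x => by ring
    have k4 : ∀ x : ℤ, 2 * c - 2 - (x - 1) = 2 * c - 1 - x := fun x => by ring
    have k5 : ∀ x : ℤ, 2 * c - 1 - (2 * c - 1 - x) = x := fun x => by ring
    have k6 : ∀ x : ℤ, 2 * c - 1 - (2 * c - 2 - x) = x + 1 := fun x => by ring
    have e1 : ∀ x y : ℤ, Even (x + (2 * c - 1 - y)) ↔ ¬ Even (x + y) := fun x y => by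
      rw [Int.even_iff, Int.even_iff]; omega
    have e2 : ∀ x y : ℤ, Even (x + (2 * c - 2 - y)) ↔ Even (x + y) := fun x y => by
      rw [Int.even_iff, Int.even_iff]; omega
    rintro (⟨x, y⟩ | ⟨x, y⟩)
    · by_cases h : Even (x + y)
      · cases h1 : ω (x + 1, y) <;>
          simp [nx, myE, h, h1, ev1, ev2, ev3, ev4, e1, e2, k1, k2, k3, k4, k5, k6]
      · cases h1 : ω (x, y) <;>
          simp [nx, myE, h, h1, ev1, ev2, ev3, ev4, e1, e2, k1, k2, k3, k4, k5, k6]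
    · by_cases h : Even (x + y)
      · cases h1 : ω (x, y) <;>
          simp [nx, myE, h, h1, ev1, ev2, ev3, ev4, e1, e2, k1, k2, k3, k4, k5, k6]
      · cases h1 : ω (x, y + 1) <;>
          simp [nx, myE, h, h1, ev1, ev2, ev3, ev4, e1, e2, k1, k2, k3, k4, k5, k6]
  h := by
    have e1 : ∀ x y : ℤ, Even (x + (2 * c - 1 - y)) ↔ ¬ Even (x + y) := fun x y => by
      rw [Int.even_iff, Int.even_iff]; omega
    have e2 : ∀ x y : ℤ, Even (x + (2 * c - 2 - y)) ↔ Even (x + y) := fun x y => by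
      rw [Int.even_iff, Int.even_iff]; omega
    rintro (⟨x, y⟩ | ⟨x, y⟩) <;> by_cases h : Even (x + y) <;>
      simp [hdv, tlv, myE, myV, h, e1, e2] <;> omega
  t := by
    have e1 : ∀ x y : ℤ, Even (x + (2 * c - 1 - y)) ↔ ¬ Even (x + y) := fun x y => by
      rw [Int.even_iff, Int.even_iff]; omega
    have e2 : ∀ x y : ℤ, Even (x + (2 * c - 2 - y)) ↔ Even (x + y) := fun x y => by
      rw [Int.even_iff, Int.even_iff]; omega
    rintro (⟨x, y⟩ | ⟨x, y⟩) <;> by_cases h : Even (x + y) <;>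
      simp [hdv, tlv, myE, myV, h, e1, e2] <;> omega

/-- mirror image of a configuration -/
def myC (c : ℤ) (ω : Cfg) : Cfg := ω ∘ fun v => (v.1, 2 * c - 1 - v.2)

theorem Pr_my (c : ℤ) {Q : ℝ} (hQ : 0 < Q) (D : Finset (ℤ × ℤ)) (f : Bool) (B : Set Cfg) :
    FK.Pr Q D (cst f) B = FK.Pr Q (D.image fun v => (v.1, 2 * c - 1 - v.2)) (cst f)
      {ω | myC c ω ∈ B} := by
  have h := (sym_of (myV c) (fun _ => rfl) (myE c) fun ω => (syR_my c ω).sy).2 Q D (cst f)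
    (B.indicator 1) hQ (good_cst f)
  exact h

/-- The colour `e` joins the two rays in the half annulus below the level of `b`. -/
def ArcT (e : Bool) (b : ℤ × ℤ) (r R : ℤ) : Set Cfg := {ω | myC b.2 ω ∈ ArcE e b r R}

theorem inc_ArcT (e : Bool) (b : ℤ × ℤ) (r R : ℤ) : IncC e (ArcT e b r R) := by
  intro o o' ho h
  exact inc_ArcE e b r R _ _ (fun v hv => ho _ hv) h

/-- the squares of the half annulus below the level of `b` -/
noncomputable def dT (b : ℤ × ℤ) (r R : ℤ) : Finset (ℤ × ℤ) :=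
  (TA.dF b r R).image fun v => (v.1, 2 * b.2 - 1 - v.2)

theorem arcT_ge {Q : ℝ} (hQ : 1 ≤ Q) (hS : SRSW Q) : ∃ (Λ : ℤ) (c : ℝ), 2 ≤ Λ ∧ 0 < c ∧
    ∀ (e : Bool) (b : ℤ × ℤ) (r R : ℤ), 1 ≤ r → Λ * r ≤ R →
      c ≤ FK.Pr Q (TA.dF b r R) (cst (!e)) (ArcE e b r R) ∧
      c ≤ FK.Pr Q (dT b r R) (cst (!e)) (ArcT e b r R) := by
  obtain ⟨Λ, c, h1, h2, h3⟩ := arcE_ge hQ hS
  refine ⟨Λ, c, h1, h2, fun e b r R hr hR => ⟨h3 e b r R hr hR, ?_⟩⟩
  have h4 := h3 e b r R hr hR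
  rw [Pr_my b.2 (by linarith)] at h4
  exact h4

/-- reflection of the paths -/
theorem pconn_my {c : ℤ} {F : Set (ℤ × ℤ)} {s t : ℤ × ℤ} (h : PConn F Set.univ s t) :
    PConn {v | (v.1, 2 * c - 1 - v.2) ∈ F} Set.univ (s.1, 2 * c - s.2) (t.1, 2 * c - t.2) := by
  obtain ⟨-, h⟩ := h
  induction h with
  | refl => exact PConn.refl (Set.mem_univ _)
  | @tail x y _ hxy ih =>
    obtain ⟨⟨g1, g2, g3⟩, -⟩ := hxy
    refine ih.tail ⟨g1, by dsimp only; omega, ?_⟩ (Set.mem_univ _)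
    dsimp only
    have e : (min x.1 y.1, 2 * c - 1 - min (2 * c - x.2) (2 * c - y.2)) =
        (min x.1 y.1, min x.2 y.2) := by
      refine Prod.ext rfl ?_
      dsimp only
      omega
    show (min x.1 y.1, 2 * c - 1 - min (2 * c - x.2) (2 * c - y.2)) ∈ F
    rw [e]
    exact g3

theorem arcE_pconn {e : Bool} {b : ℤ × ℤ} {r R : ℤ} {ω : Cfg} (h : ω ∈ ArcE e b r R) :
    ∃ s t : ℤ × ℤ, s.2 = b.2 ∧ t.2 = b.2 ∧ b.1 - R ≤ s.1 ∧ s.1 ≤ b.1 - r ∧ b.1 + r ≤ t.1 ∧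
      t.1 ≤ b.1 + R ∧ (s.1 + s.2) % 2 = pr e ∧ PConn (cs e ω ∩ TA.dq b r R) Set.univ s t := by
  obtain ⟨x, x', h1, h2, h3, h4, h5, h6⟩ := h
  exact ⟨(x, b.2), (x', b.2), rfl, rfl, h1, h2, h3, h4, h5, pw_pconn subset_rfl h6⟩

theorem arcT_pconn {e : Bool} {b : ℤ × ℤ} {r R : ℤ} {ω : Cfg} (h : ω ∈ ArcT e b r R) :
    ∃ s t : ℤ × ℤ, s.2 = b.2 ∧ t.2 = b.2 ∧ b.1 - R ≤ s.1 ∧ s.1 ≤ b.1 - r ∧ b.1 + r ≤ t.1 ∧
      t.1 ≤ b.1 + R ∧ (s.1 + s.2) % 2 = pr e ∧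
      PConn (cs e ω ∩ {v | (v.1, 2 * b.2 - 1 - v.2) ∈ TA.dq b r R}) Set.univ s t := by
  obtain ⟨s, t, h1, h2, h3, h4, h5, h6, h7, h8⟩ := arcE_pconn h
  have h9 := pconn_my (c := b.2) h8
  have e1 : (s.1, 2 * b.2 - s.2) = s := Prod.ext rfl (by dsimp only; omega)
  have e2 : (t.1, 2 * b.2 - t.2) = t := Prod.ext rfl (by dsimp only; omega)
  rw [e1, e2] at h9
  refine ⟨s, t, h1, h2, h3, h4, h5, h6, h7, h9.mono ?_ subset_rfl⟩
  rintro v ⟨hv, hv'⟩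
  refine ⟨?_, hv'⟩
  have e3 : (v.1, 2 * b.2 - 1 - (2 * b.2 - 1 - v.2)) = v := Prod.ext rfl (by dsimp only; omega)
  have hv1 : ω (v.1, 2 * b.2 - 1 - (2 * b.2 - 1 - v.2)) = e := hv
  rw [e3] at hv1
  exact hv1

end Vale.Agent.P167.H685.LD
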