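import Vale.Agent.P167.H685.LD.Prob
import Vale.Agent.P167.H685.LD.Jun

/-!
# P167, general `q`, block Q-LAM, [LD]: a room above the junction

`Room`: the domain is a rectangle near the column above the junction, the directions are monotone.
`low_of`: on `Ea ∩ SE` all the weights are bounded from below.
-/

namespace Vale.Agent.P167.H685.LD

open Finset Relation Vale.Agent.P145.FB
open Vale.Agent.P167 Vale.Agent.P167.BR Vale.Agent.P167.FK
open Vale.Agent.P167.E6 (IsPolygon Encloses face dir)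
open Vale.Agent.P167.H632 (cs pr IncC)
open Vale.Agent.P167.H192 (TA.dq)
open Vale.Agent.P167.H718 (IsXY IsCl Cl rc isCl_strand)
open Vale.Agent.P167.QX (lo hi exists_xy lo_xy hi_xy wB)
open Vale.Agent.P167.H601.LG (wJ GeoN Spe SepL Kt Fw feet sin_pos' sin2_pos wJ_cl wJ_ot wJ_fw2
  exists_low_wJ)

variable {N k : ℕ} {q : ZMod N → ℤ × ℤ} {D : Finset (ℤ × ℤ)} {R r r1 R1 h : ℤ} {ω : Cfg}
  {A : Finset Ed} {e : Bool} {τ : ℕ → ℤ} {θ : ℝ}

/-- The room above the junction. -/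
structure Room (q : ZMod N → ℤ × ℤ) (D : Finset (ℤ × ℤ)) (k : ℕ) (τ : ℕ → ℤ) (R h : ℤ) : Prop where
  jw : JW q D k R
  strip : ∀ v : ℤ × ℤ, (q (k : ZMod N)).1 - R ≤ v.1 → v.1 < (q (k : ZMod N)).1 + R →
    (v ∈ D ↔ (q (k : ZMod N)).2 ≤ v.2 ∧ v.2 < (q (k : ZMod N)).2 + h)
  top : ∀ z : ℤ × ℤ, z.2 = (q (k : ZMod N)).2 + h → |z.1 - (q (k : ZMod N)).1| ≤ R →
    ∃ c : ℕ, c < N ∧ q (c : ZMod N) = z ∧ τ c = τ 0 + 2
  mono : ∀ x y, x ≤ y → y < N → 0 ≤ τ y - τ x ∧ τ y - τ x ≤ 4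
  jun : (∀ x, x < k → τ x = τ 0) ∨ (∀ y, k ≤ y → y < N → τ y = τ 0 + 4)

/-- lower bound for the strands between the arcs -/
theorem exists_low_fw (h0 : 0 < θ) (h1 : θ ≤ Real.pi / 3) : ∃ c : ℝ, 0 < c ∧ ∀ K : ℤ, 1 ≤ K → K ≤ 4 →
    c ≤ Real.sin (θ / 2 * K) / Real.sin θ := by
  have hpi := Real.pi_pos
  have hs1 := sin_pos' h0 h1
  have hs2 := sin2_pos h0 h1
  refine ⟨min (min (Real.sin (θ / 2) / Real.sin θ) (Real.sin θ / Real.sin θ))
    (min (Real.sin (3 * θ / 2) / Real.sin θ) (Real.sin (2 * θ) / Real.sin θ)), ?_, ?_⟩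
  · have e1 : 0 < Real.sin (θ / 2) := Real.sin_pos_of_pos_of_lt_pi (by linarith) (by linarith)
    have e2 : 0 < Real.sin (3 * θ / 2) := Real.sin_pos_of_pos_of_lt_pi (by linarith) (by linarith)
    have k1 : 0 < Real.sin (θ / 2) / Real.sin θ := by positivity
    have k2 : 0 < Real.sin θ / Real.sin θ := by positivity
    have k3 : 0 < Real.sin (3 * θ / 2) / Real.sin θ := by positivity
    have k4 : 0 < Real.sin (2 * θ) / Real.sin θ := by positivity
    exact lt_min (lt_min k1 k2) (lt_min k3 k4)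
  · intro K hK1 hK4
    have hK : K = 1 ∨ K = 2 ∨ K = 3 ∨ K = 4 := by omega
    rcases hK with rfl | rfl | rfl | rfl
    · refine ((min_le_left _ _).trans (min_le_left _ _)).trans (le_of_eq ?_)
      norm_num
    · refine ((min_le_left _ _).trans (min_le_right _ _)).trans (le_of_eq ?_)
      congr 2
      push_cast
      ring
    · refine ((min_le_right _ _).trans (min_le_left _ _)).trans (le_of_eq ?_)
      congr 2
      push_cast
      ring
    · refine ((min_le_right _ _).trans (min_le_right _ _)).trans (le_of_eq ?_)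
      congr 2
      push_cast
      ring

/-- **All the weights are nonnegative.** -/
theorem w_nonneg (h0 : 0 < θ) (h1 : θ ≤ Real.pi / 3) (hq : IsPolygon q) (hD : Encloses q D)
    (hm : ∀ x y, x ≤ y → y < N → 0 ≤ τ y - τ x ∧ τ y - τ x ≤ 4) (hA : A ∈ pcs ω D) :
    0 ≤ wJ θ ((θ - Real.pi) / 2) q D k τ A := by
  have hpi := Real.pi_pos
  have hs1 := sin_pos' h0 h1
  have hs2 := sin2_pos h0 h1
  have hcos : 0 < Real.cos θ := Real.cos_pos_of_mem_Ioo ⟨by linarith, by linarith⟩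
  by_cases hl : IsLp D A
  · rw [H601.LG.wJ_lp hq hD hA hl hcos.ne']
    exact zero_le_one
  · obtain ⟨f1, f2, -, -⟩ := feet hq hD hA hl
    obtain ⟨g1, g2⟩ := hm _ _ f1.le f2
    have hK : Kt q τ A = τ (hi q A) - τ (lo q A) := rfl
    rw [← hK] at g1 g2
    have g1' : (0 : ℝ) ≤ Kt q τ A := by exact_mod_cast g1
    have g2' : (Kt q τ A : ℝ) ≤ 4 := by exact_mod_cast g2
    have e1 : θ / 2 * (Kt q τ A : ℝ) ≤ θ / 2 * 4 := mul_le_mul_of_nonneg_left g2' (by linarith)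
    have e2 : 0 ≤ θ / 2 * (Kt q τ A : ℝ) := by positivity
    by_cases hF : lo q A < k ∧ k ≤ hi q A
    · rw [wJ_fw2 rfl hl hF]
      exact div_nonneg (Real.sin_nonneg_of_nonneg_of_le_pi e2 (by linarith)) hs1.le
    · by_cases hC : IsCl D q k A
      · rw [wJ_cl hl f1.le hF hC]
        exact div_nonneg (Real.sin_nonneg_of_nonneg_of_le_pi (by linarith) (by linarith)) hs2.le
      · rw [wJ_ot hl f1.le hF hC]
        exact div_nonneg (Real.sin_nonneg_of_nonneg_of_le_pi (by linarith) (by linarith)) hs1.le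

/-- **On `Ea ∩ SE` a strand goes around the junction iff it goes around a point of the north side.** -/
theorem exists_top (hq : IsPolygon q) (hD : Encloses q D) (hM : Room q D k τ R h)
    (hpar : ((q (k : ZMod N)).1 + (q (k : ZMod N)).2) % 2 = pr e)
    (hr1 : 1 ≤ r1) (hrR1 : r1 ≤ R1) (h1 : R1 ≤ r) (h2 : r + 2 ≤ R)
    (hω : ω ∈ Ea e D (q (k : ZMod N)) r)
    (hS : ω ∈ SE e (q (k : ZMod N)) r1 R1 ((q (k : ZMod N)).2 + h)) :
    ∃ c : ℕ, c < N ∧ τ c = τ 0 + 2 ∧ ∀ A ∈ pcs ω D, ¬ IsLp D A →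
      ((lo q A < k ∧ k ≤ hi q A) ↔ (lo q A < c ∧ c ≤ hi q A)) := by
  obtain ⟨s, t, z, s1, t1, s2, s3, t2, t3, s4, hst, z1, z2, z3, hsz⟩ := hS
  obtain ⟨c1, i1, i2, i3⟩ := hM.jw.site s1 (by rw [abs_le]; omega)
  obtain ⟨c2, j1, j2, j3⟩ := hM.jw.site t1 (by rw [abs_le]; omega)
  obtain ⟨c3, l1, l2, l3⟩ := hM.top z z1 (by rw [abs_le]; omega)
  refine ⟨c3, l1, l3, fun A hA hl => ?_⟩
  have hdom := hM.strip
  have hp : PConn (cs e ω ∩ ↑(D ∩ Bq (q (k : ZMod N)) R1)) Set.univ (q (c1 : ZMod N))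
      (q (c2 : ZMod N)) := by
    rw [i2, j2]
    refine hst.mono ?_ subset_rfl
    rintro v ⟨hv, hv'⟩
    simp only [TA.dq, Set.mem_ofPred_eq] at hv'
    have hB : v ∈ Bq (q (k : ZMod N)) R1 := by
      rw [mem_Bq]
      omega
    have hvD : v ∈ D := (hM.jw.dom v (nm_le.2 (by
      simp only [Prod.fst_sub, Prod.snd_sub]
      omega))).2 hv'.2.2.1
    exact ⟨hv, Finset.mem_coe.2 (Finset.mem_inter.2 ⟨hvD, hB⟩)⟩
  have hp3 : PConn (cs e ω ∩ ↑D) Set.univ (q (c1 : ZMod N)) (q (c3 : ZMod N)) := by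
    rw [i2, l2]
    refine hsz.mono ?_ subset_rfl
    rintro v ⟨hv, hv'⟩
    simp only [LD.Cl, Set.mem_ofPred_eq] at hv'
    exact ⟨hv, Finset.mem_coe.2 ((hdom v (by omega) (by omega)).2 hv'.2)⟩
  exact fw_iff hq hD hM.jw (by omega) h1 (by omega) h2 hpar hω (by omega) (by omega) (by omega)
    (by omega) l1.le hp hp3 (by rw [i2]; exact s4) hA hl

/-- **Lower bound for all the weights on `Ea ∩ SE`.** -/
theorem low_of (h0 : 0 < θ) (h1 : θ ≤ Real.pi / 3) : ∃ c : ℝ, 0 < c ∧ c ≤ 1 ∧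
    ∀ {N k : ℕ} {q : ZMod N → ℤ × ℤ} {D : Finset (ℤ × ℤ)} {R r r1 R1 h : ℤ} {ω : Cfg} {e : Bool}
      {τ : ℕ → ℤ}, IsPolygon q → Encloses q D → Room q D k τ R h →
      ((q (k : ZMod N)).1 + (q (k : ZMod N)).2) % 2 = pr e → 1 ≤ r1 → r1 ≤ R1 → R1 ≤ r →
      r + 2 ≤ R → ω ∈ Ea e D (q (k : ZMod N)) r →
      ω ∈ SE e (q (k : ZMod N)) r1 R1 ((q (k : ZMod N)).2 + h) → ∀ A ∈ pcs ω D,
      c ≤ wJ θ ((θ - Real.pi) / 2) q D k τ A := by
  obtain ⟨c1, hc1, hc11, hlow⟩ := exists_low_wJ h0 h1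
  obtain ⟨c2, hc2, hfw⟩ := exists_low_fw h0 h1
  have hcos : 0 < Real.cos θ := Real.cos_pos_of_mem_Ioo ⟨by linarith [Real.pi_pos], by
    linarith [Real.pi_pos]⟩
  refine ⟨min c1 c2, lt_min hc1 hc2, (min_le_left _ _).trans hc11,
    fun {N k q D R r r1 R1 h ω e τ} hq hD hM hpar hr1 hrR1 h3 h4 hω hS A hA => ?_⟩
  by_cases hl : IsLp D A
  · rw [H601.LG.wJ_lp hq hD hA hl hcos.ne']
    exact (min_le_left _ _).trans hc11
  obtain ⟨c, d1, d2, d3⟩ := exists_top hq hD hM hpar hr1 hrR1 h3 h4 hω hS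
  obtain ⟨f1, f2, -, -⟩ := feet hq hD hA hl
  obtain ⟨g1, g2⟩ := hM.mono _ _ f1.le f2
  have hlt := hM.jw.lt
  have hgt := hM.jw.gt
  have hpos := hM.jw.pos
  have hK : Kt q τ A = τ (hi q A) - τ (lo q A) := rfl
  have key := d3 A hA hl
  have m0 := hM.mono 0 (lo q A) (Nat.zero_le _) (by omega)
  have m1 := hM.mono 0 (hi q A) (Nat.zero_le _) f2
  by_cases hF : lo q A < k ∧ k ≤ hi q A
  · obtain ⟨e1, e2⟩ := key.1 hF
    have m2 := hM.mono (lo q A) c e1.le d1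
    have m3 := hM.mono c (hi q A) e2 f2
    rw [wJ_fw2 rfl hl hF]
    refine (min_le_right _ _).trans (hfw _ ?_ (by omega))
    rcases hM.jun with h5 | h5
    · have := h5 (lo q A) hF.1
      omega
    · have := h5 (hi q A) hF.2 f2
      omega
  · refine (min_le_left _ _).trans (hlow hq hD hA hF (by omega) ?_)
    by_contra hcon
    have hc : lo q A < c ∧ c ≤ hi q A := by
      constructor
      · by_contra h6
        have := hM.mono c (lo q A) (by omega) (by omega)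
        omega
      · by_contra h6
        have := hM.mono (hi q A) c (by omega) d1
        omega
    exact hF (key.2 hc)

end Vale.Agent.P167.H685.LD
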