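import Vale.Agent.P167.H318.LC.Sp
import Vale.Agent.P167.H318.LC.Uni

/-!
# P167, general `q`, block Q-LAM, [LD]: coordinates on the Dobrushin squares
-/

namespace Vale.Agent.P167.H685.LD

open Finset
open Vale.Agent.P167.Enl (PN PN_lin mem_enl_div)
open Vale.Agent.P167.E6 (IsPolygon Encloses dir)
open Vale.Agent.P167.H825 (enl pdir ptau)
open Vale.Agent.P167.H718.Lam (dP dS)
open Vale.Agent.P167.H318.LC (bT0 bT1 bq_ptau0 bq_ptau1)

variable {n m : ℕ}

theorem dP_poly (i : Fin 2) : IsPolygon (dP i) := by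
  fin_cases i
  · exact H318.LC.bq_poly0
  · exact H318.LC.bq_poly1

theorem dP_encl (i : Fin 2) : Encloses (dP i) dS := by
  fin_cases i
  · exact H318.LC.bq_encl0
  · exact H318.LC.bq_encl1

theorem pn_side {l : ℕ} {p : ZMod l → ℤ × ℤ} (hn : 0 < n) {c : ℕ} {x d : ℤ × ℤ}
    (h0 : p (c : ZMod l) = x) (h1 : p ((c + 1 : ℕ) : ZMod l) = x + d)
    (h2 : p ((c + 2 : ℕ) : ZMod l) = x + d + d) (d0 : dir (pdir p c) = d)
    (d1 : dir (pdir p (c + 1)) = d) (hm1 : c * n ≤ m) (hm2 : m ≤ (c + 2) * n) :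
    PN p n m = (n : ℤ) • x + ((m : ℤ) - c * n) • d := by
  rcases Nat.lt_or_ge m ((c + 1) * n) with h | h
  · obtain ⟨j, rfl⟩ : ∃ j, m = c * n + j := ⟨m - c * n, by omega⟩
    rw [PN_lin hn (by rw [Nat.succ_mul] at h; omega), h0, d0]
    congr 2
    push_cast
    ring
  · rcases Nat.lt_or_ge m ((c + 2) * n) with h' | h'
    · obtain ⟨j, rfl⟩ : ∃ j, m = (c + 1) * n + j := ⟨m - (c + 1) * n, by omega⟩
      have hj : j < n := by
        have : (c + 2) * n = (c + 1) * n + n := by ring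
        omega
      rw [PN_lin hn hj, h1, d1, smul_add, add_assoc, ← add_smul]
      congr 2
      push_cast
      ring
    · obtain rfl : m = (c + 2) * n + 0 := by omega
      rw [PN_lin hn hn, h2, smul_add, smul_add, Nat.cast_zero, zero_smul, add_zero, add_assoc,
        ← add_smul]
      congr 2
      push_cast
      ring

theorem south0 (hn : 0 < n) (h : m ≤ 2 * n) : PN (dP 0) n m = ((m : ℤ), 0) := by
  rw [pn_side (c := 0) (x := (0, 0)) (d := (1, 0)) hn rfl rfl rfl (by decide) (by decide)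
    (by omega) (by omega)]
  refine Prod.ext ?_ ?_ <;> simp

theorem north0 (hn : 0 < n) (h1 : 4 * n ≤ m) (h2 : m ≤ 6 * n) :
    PN (dP 0) n m = (6 * (n : ℤ) - m, 2 * (n : ℤ)) := by
  rw [pn_side (c := 4) (x := (2, 2)) (d := (-1, 0)) hn rfl rfl rfl (by decide) (by decide)
    (by omega) (by omega)]
  refine Prod.ext ?_ ?_
  · simp
    ring
  · simp
    ring

theorem south1 (hn : 0 < n) (h1 : 7 * n ≤ m) (h2 : m ≤ 9 * n) :
    PN (dP 1) n m = ((m : ℤ) - 7 * n, 0) := by
  rw [pn_side (c := 7) (x := (0, 0)) (d := (1, 0)) hn rfl rfl rfl (by decide) (by decide)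
    (by omega) (by omega)]
  refine Prod.ext ?_ ?_ <;> simp

theorem north1 (hn : 0 < n) (h1 : 3 * n ≤ m) (h2 : m ≤ 5 * n) :
    PN (dP 1) n m = (5 * (n : ℤ) - m, 2 * (n : ℤ)) := by
  rw [pn_side (c := 3) (x := (2, 2)) (d := (-1, 0)) hn rfl rfl rfl (by decide) (by decide)
    (by omega) (by omega)]
  refine Prod.ext ?_ ?_
  · simp
    ring
  · simp
    ring

/-- position of the south side -/
def oS (i : Fin 2) : ℕ := if i = 0 then 0 else 7

/-- position of the north side -/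
def oN (i : Fin 2) : ℕ := if i = 0 then 4 else 3

theorem two (i : Fin 2) : i = 0 ∨ i = 1 := by fin_cases i <;> simp

theorem south (hn : 0 < n) (i : Fin 2) (h1 : oS i * n ≤ m) (h2 : m ≤ oS i * n + 2 * n) :
    PN (dP i) n m = ((m : ℤ) - (oS i * n : ℕ), 0) := by
  rcases two i with rfl | rfl
  · have e : oS 0 = 0 := rfl
    rw [e] at h1 h2 ⊢
    rw [south0 hn (by omega)]
    simp
  · have e : oS 1 = 7 := rfl
    rw [e] at h1 h2 ⊢
    rw [south1 hn (by omega) (by omega)]
    push_cast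
    rfl

theorem north (hn : 0 < n) (i : Fin 2) (h1 : oN i * n ≤ m) (h2 : m ≤ oN i * n + 2 * n) :
    PN (dP i) n m = ((oN i * n : ℕ) + 2 * (n : ℤ) - m, 2 * (n : ℤ)) := by
  rcases two i with rfl | rfl
  · have e : oN 0 = 4 := rfl
    rw [e] at h1 h2 ⊢
    rw [north0 hn (by omega) (by omega)]
    push_cast
    ring_nf
  · have e : oN 1 = 3 := rfl
    rw [e] at h1 h2 ⊢
    rw [north1 hn (by omega) (by omega)]
    push_cast
    ring_nf

/-- the squares of the enlargement -/
theorem mem_dS (hn : 0 < n) {v : ℤ × ℤ} : v ∈ enl dS n ↔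
    (0 ≤ v.1 ∧ v.1 < 2 * n) ∧ 0 ≤ v.2 ∧ v.2 < 2 * n := by
  have hn' : (0 : ℤ) < n := by exact_mod_cast hn
  rw [mem_enl_div hn]
  have key : ∀ x : ℤ, (x / n = 0 ∨ x / n = 1) ↔ 0 ≤ x ∧ x < 2 * n := by
    intro x
    constructor
    · rintro (h | h)
      · have := Int.ediv_emod_unique (a := x) (b := n) (q := 0) (r := x) hn'
        rw [Int.ediv_eq_iff_of_pos hn'] at h
        omega
      · rw [Int.ediv_eq_iff_of_pos hn'] at h
        omega
    · intro h
      rcases lt_or_ge x n with h1 | h1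
      · left
        rw [Int.ediv_eq_iff_of_pos hn']
        omega
      · right
        rw [Int.ediv_eq_iff_of_pos hn']
        omega
  rw [← key v.1, ← key v.2]
  unfold dS
  simp only [mem_insert, mem_singleton, Prod.mk.injEq]
  omega

end Vale.Agent.P167.H685.LD
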