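import Vale.Agent.P167.H685.LD.Sq
import Vale.Agent.P167.H685.LD.Room
import Vale.Agent.P167.H318.LC.Lp

/-!
# P167, general `q`, block Q-LAM, [LD]: the room above the junction of the Dobrushin squares
-/

namespace Vale.Agent.P167.H685.LD

open Finset
open Vale.Agent.P167.FK
open Vale.Agent.P167.Enl (PN PN_lin PN_add_l)
open Vale.Agent.P167.E6 (IsPolygon Encloses dir)
open Vale.Agent.P167.H825 (enl pdir ptau)
open Vale.Agent.P167.H718.Lam (dP dS enP Pg)
open Vale.Agent.P167.H318.LC (bT0 bT1 bq_ptau0 bq_ptau1 bT0_bounds bT1_bounds HB q_nat tau_ptau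
  corner_iff)
open Vale.Agent.P167.H601.LG (Spe SepL)

/-- the polygon -/
def sqQ (i : Fin 2) (n s : ℕ) (a : ℤ × ℤ) : ZMod (8 * n) → ℤ × ℤ := fun j =>
  Enl.qN (dP i) n s j + a

/-- the domain -/
def sqD (n : ℕ) (a : ℤ × ℤ) : Finset (ℤ × ℤ) := (enl dS n).image (· + a)

variable {n m s s' k L : ℕ} {i : Fin 2} {a : ℤ × ℤ} {τ : ℕ → ℤ} {η : Cfg}

theorem sqQ_nat (hn : 0 < n) (j : ℕ) : sqQ i n s a (j : ZMod (8 * n)) = PN (dP i) n (j + s) + a := by
  show Enl.qN (dP i) n s (j : ZMod (8 * n)) + a = _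
  rw [Enl.qN_nat hn]

/-- the abscissa of the junction -/
theorem jx_bounds (hn : 0 < n) (hs0 : 0 < s) (hs : s < n) (hs'0 : 0 < s') (hs' : s' < n)
    (hk : k + s = ![1, 7] i * n + s') (hu : HB (dP i) dS n s a k τ η) (hS : SepL L (8 * n) τ k) :
    L ≤ k ∧ k + L ≤ 8 * n ∧ oS i * n + L ≤ k + s ∧ k + s + L ≤ oS i * n + 2 * n := by
  have hp := dP_poly i
  rcases two i with rfl | rfl
  · have e : oS 0 = 0 := rfl
    have e' : (![1, 7] : Fin 2 → ℕ) 0 = 1 := rfl
    rw [e'] at hk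
    rw [e]
    have h1 := hS 0 k (by omega) (by omega) (Or.inl rfl) (Or.inr (Or.inl rfl))
    have h2 : Spe τ k ((1 + 1) * n - s) := Or.inr (Or.inr ⟨by omega,
      (corner_iff hn hp hs hu (by omega)).2 ⟨1, rfl, by decide⟩⟩)
    have h3 := hS k ((1 + 1) * n - s) (by omega) (by omega) (Or.inr (Or.inl rfl)) h2
    omega
  · have e : oS 1 = 7 := rfl
    have e' : (![1, 7] : Fin 2 → ℕ) 1 = 7 := rfl
    rw [e'] at hk
    rw [e]
    have h1 := hS 0 k (by omega) (by omega) (Or.inl rfl) (Or.inr (Or.inl rfl))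
    have h2 : Spe τ k ((6 + 1) * n - s) := Or.inr (Or.inr ⟨by omega,
      (corner_iff hn hp hs hu (by omega)).2 ⟨6, rfl, by decide⟩⟩)
    have h3 := hS ((6 + 1) * n - s) k (by omega) (by omega) h2 (Or.inr (Or.inl rfl))
    omega

/-- the turning -/
theorem sq_mono (hn : 0 < n) (hs : s < n) (hu : HB (dP i) dS n s a k τ η) {x y : ℕ} (hxy : x ≤ y)
    (hy : y < 8 * n) : 0 ≤ τ y - τ x ∧ τ y - τ x ≤ 4 := by
  have hp := dP_poly i
  rw [tau_ptau hn hp hs hu x, tau_ptau hn hp hs hu y]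
  have h1 : (x + s) / n ≤ (y + s) / n := Nat.div_le_div_right (by omega)
  have h2 : (y + s) / n < 9 := by
    rw [Nat.div_lt_iff_lt_mul hn]
    omega
  rcases two i with rfl | rfl
  · have e1 : ptau (dP 0) ((x + s) / n) = bT0 ((x + s) / n) := bq_ptau0 _ (by omega)
    have e2 : ptau (dP 0) ((y + s) / n) = bT0 ((y + s) / n) := bq_ptau0 _ (by omega)
    rw [e1, e2]
    have := bT0_bounds _ (by omega) _ h2 h1
    omega
  · have e1 : ptau (dP 1) ((x + s) / n) = bT1 ((x + s) / n) := bq_ptau1 _ (by omega)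
    have e2 : ptau (dP 1) ((y + s) / n) = bT1 ((y + s) / n) := bq_ptau1 _ (by omega)
    rw [e1, e2]
    have := bT1_bounds _ (by omega) _ h2 h1
    omega

/-- the junction is on the first or on the last side -/
theorem sq_jun (hn : 0 < n) (hs : s < n) (hs' : s' < n)
    (hk : k + s = ![1, 7] i * n + s') (hu : HB (dP i) dS n s a k τ η) :
    (∀ x, x < k → τ x = τ 0) ∨ (∀ y, k ≤ y → y < 8 * n → τ y = τ 0 + 4) := by
  have hp := dP_poly i
  rcases two i with rfl | rfl
  · left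
    intro x hx
    have e' : (![1, 7] : Fin 2 → ℕ) 0 = 1 := rfl
    rw [e'] at hk
    rw [tau_ptau hn hp hs hu x]
    have h2 : (x + s) / n < 2 := by
      rw [Nat.div_lt_iff_lt_mul hn]
      omega
    have e1 : ptau (dP 0) ((x + s) / n) = bT0 ((x + s) / n) := bq_ptau0 _ (by omega)
    rw [e1]
    have h3 : (x + s) / n = 0 ∨ (x + s) / n = 1 := by
      generalize (x + s) / n = c at h2 ⊢
      omega
    rcases h3 with h3 | h3 <;> rw [h3] <;> simp [bT0]
  · right
    intro y hy hy2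
    have e' : (![1, 7] : Fin 2 → ℕ) 1 = 7 := rfl
    rw [e'] at hk
    rw [tau_ptau hn hp hs hu y]
    have h2 : (y + s) / n < 9 := by
      rw [Nat.div_lt_iff_lt_mul hn]
      omega
    have h1 : 7 ≤ (y + s) / n := by
      rw [Nat.le_div_iff_mul_le hn]
      omega
    have e1 : ptau (dP 1) ((y + s) / n) = bT1 ((y + s) / n) := bq_ptau1 _ (by omega)
    rw [e1]
    have h3 : (y + s) / n = 7 ∨ (y + s) / n = 8 := by
      generalize (y + s) / n = c at h1 h2 ⊢
      omega
    rcases h3 with h3 | h3 <;> rw [h3] <;> simp [bT1]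

theorem sq_top (hn : 0 < n) (hs : s < n) (hu : HB (dP i) dS n s a k τ η) {y : ℕ} (hy : 0 < y)
    (hy2 : y < 2 * n) : ∃ c : ℕ, c < 8 * n ∧ sqQ i n s a (c : ZMod (8 * n)) =
      (2 * (n : ℤ) - y, 2 * (n : ℤ)) + a ∧ τ c = τ 0 + 2 := by
  have hp := dP_poly i
  have hN : 3 ≤ oN i ∧ oN i ≤ 4 := by
    rcases two i with rfl | rfl
    · exact ⟨by decide, by decide⟩
    · exact ⟨by decide, by decide⟩
  have hNn : 3 * n ≤ oN i * n ∧ oN i * n ≤ 4 * n :=
    ⟨Nat.mul_le_mul_right _ hN.1, Nat.mul_le_mul_right _ hN.2⟩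
  refine ⟨oN i * n + y - s, by omega, ?_, ?_⟩
  · rw [sqQ_nat hn, Nat.sub_add_cancel (by omega), north hn i (by omega) (by omega)]
    congr 1
    refine Prod.ext ?_ rfl
    push_cast
    ring
  · rw [tau_ptau hn hp hs hu, Nat.sub_add_cancel (by omega)]
    have h2 : (oN i * n + y) / n < oN i + 2 := by
      rw [Nat.div_lt_iff_lt_mul hn, Nat.add_mul]
      omega
    have h1 : oN i ≤ (oN i * n + y) / n := by
      rw [Nat.le_div_iff_mul_le hn]
      omega
    have h3 : (oN i * n + y) / n = oN i ∨ (oN i * n + y) / n = oN i + 1 := by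
      generalize (oN i * n + y) / n = c at h1 h2 ⊢
      omega
    congr 1
    rcases two i with rfl | rfl
    · have e : oN 0 = 4 := rfl
      rw [e] at h3 ⊢
      have e1 : ptau (dP 0) ((4 * n + y) / n) = bT0 ((4 * n + y) / n) := bq_ptau0 _ (by omega)
      rw [e1]
      rcases h3 with h3 | h3 <;> rw [h3] <;> simp [bT0]
    · have e : oN 1 = 3 := rfl
      rw [e] at h3 ⊢
      have e1 : ptau (dP 1) ((3 * n + y) / n) = bT1 ((3 * n + y) / n) := bq_ptau1 _ (by omega)
      rw [e1]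
      rcases h3 with h3 | h3 <;> rw [h3] <;> simp [bT1]

theorem sq_south (hn : 0 < n) {j : ℕ} (h1 : oS i * n ≤ j + s) (h2 : j + s ≤ oS i * n + 2 * n) :
    sqQ i n s a (j : ZMod (8 * n)) =
      (((j + s : ℕ) : ℤ) - (oS i * n : ℕ), 0) + a := by
  rw [sqQ_nat hn, south hn i h1 h2]

theorem mem_sqD (hn : 0 < n) {v : ℤ × ℤ} : v ∈ sqD n a ↔
    (a.1 ≤ v.1 ∧ v.1 < a.1 + 2 * n) ∧ a.2 ≤ v.2 ∧ v.2 < a.2 + 2 * n := by
  show v ∈ (enl dS n).image (· + a) ↔ _
  rw [mem_image]
  constructor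
  · rintro ⟨u, hu, rfl⟩
    rw [mem_dS hn] at hu
    simp only [Prod.fst_add, Prod.snd_add]
    omega
  · intro h
    refine ⟨v - a, ?_, sub_add_cancel v a⟩
    rw [mem_dS hn]
    simp only [Prod.fst_sub, Prod.snd_sub]
    omega

/-- **The room above the junction.** -/
theorem room_sq (hn : 0 < n) (hs0 : 0 < s) (hs : s < n) (hs'0 : 0 < s') (hs' : s' < n)
    (hk : k + s = ![1, 7] i * n + s') (hu : HB (dP i) dS n s a k τ η) (hS : SepL L (8 * n) τ k)
    (hL : 2 ≤ L) :
    Room (sqQ i n s a) (sqD n a) k τ ((L : ℤ) - 1)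
      (2 * n) := by
  obtain ⟨b1, b2, b3, b4⟩ := jx_bounds hn hs0 hs hs'0 hs' hk hu hS
  have hqk := sq_south (a := a) (j := k) (s := s) (i := i) hn (by omega)
    (by omega)
  set o := oS i * n with ho
  have q1 : (sqQ i n s a (k : ZMod (8 * n))).1 = (k : ℤ) + s - o + a.1 := by
    rw [hqk]
    push_cast
    rfl
  have q2 : (sqQ i n s a (k : ZMod (8 * n))).2 = a.2 := by
    rw [hqk]
    simp
  constructor
  · constructor
    · omega
    · omega
    · show (k : ℤ) + ((L : ℤ) - 1) < ((8 * n : ℕ) : ℤ)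
      push_cast
      omega
    · intro j j1 j2
      have h1 := sq_south (a := a) (j := j) (s := s) (i := i) hn
        (by omega) (by omega)
      show sqQ i n s a (j : ZMod (8 * n)) = _
      rw [h1, ← ho]
      refine Prod.ext ?_ ?_
      · show _ = (sqQ i n s a (k : ZMod (8 * n))).1 + ((j : ℤ) - k)
        rw [q1]
        simp only [Prod.fst_add]
        push_cast
        ring
      · show _ = (sqQ i n s a (k : ZMod (8 * n))).2
        rw [q2]
        simp
    · intro v hv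
      have hv' : nm (v - sqQ i n s a (k : ZMod (8 * n))) ≤ (L : ℤ) - 1 := hv
      rw [nm_le] at hv'
      simp only [Prod.fst_sub, Prod.snd_sub] at hv'
      rw [q1, q2] at hv'
      rw [mem_sqD hn]
      show _ ↔ (sqQ i n s a (k : ZMod (8 * n))).2 ≤ v.2
      rw [q2]
      omega
  · intro v v1 v2
    have v1' : (sqQ i n s a (k : ZMod (8 * n))).1 - ((L : ℤ) - 1) ≤ v.1 := v1
    have v2' : v.1 < (sqQ i n s a (k : ZMod (8 * n))).1 + ((L : ℤ) - 1) := v2
    rw [mem_sqD hn]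
    show _ ↔ (sqQ i n s a (k : ZMod (8 * n))).2 ≤ v.2 ∧ v.2 < (sqQ i n s a (k : ZMod (8 * n))).2 + 2 * n
    rw [q1] at v1' v2'
    rw [q2]
    omega
  · intro z z1 z2
    have z1' : z.2 = (sqQ i n s a (k : ZMod (8 * n))).2 + 2 * n := z1
    have z2' : |z.1 - (sqQ i n s a (k : ZMod (8 * n))).1| ≤ (L : ℤ) - 1 := z2
    rw [q1, abs_le] at z2'
    rw [q2] at z1'
    obtain ⟨c, c1, c2, c3⟩ := sq_top (a := a) (i := i) hn hs hu
      (y := (2 * (n : ℤ) - (z.1 - a.1)).toNat) (by omega) (by omega)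
    refine ⟨c, c1, ?_, c3⟩
    show sqQ i n s a (c : ZMod (8 * n)) = z
    rw [c2]
    refine Prod.ext ?_ ?_
    · simp only [Prod.fst_add]
      rw [Int.toNat_of_nonneg (by omega)]
      ring
    · simp only [Prod.snd_add]
      omega
  · intro x y hxy hy
    exact sq_mono hn hs hu hxy hy
  · exact sq_jun hn hs hs' hk hu

/-- **The other special points are far from the column of the junction.** -/
theorem sq_far (hn : 0 < n) (hs0 : 0 < s) (hs : s < n) (hs'0 : 0 < s') (hs' : s' < n)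
    (hk : k + s = ![1, 7] i * n + s') (hu : HB (dP i) dS n s a k τ η) (hS : SepL L (8 * n) τ k)
    {j : ℕ} (hj : j < 8 * n) (hjk : j ≠ k) (hsp : Spe τ k j) :
    (L : ℤ) ≤ |(sqQ i n s a (j : ZMod (8 * n))).1 -
      (sqQ i n s a (k : ZMod (8 * n))).1| := by
  obtain ⟨b1, b2, b3, b4⟩ := jx_bounds hn hs0 hs hs'0 hs' hk hu hS
  have hp := dP_poly i
  have hqk := sq_south (a := a) (j := k) (s := s) (i := i) hn (by omega)
    (by omega)
  set o := oS i * n with ho
  have q1 : (sqQ i n s a (k : ZMod (8 * n))).1 = (k : ℤ) + s - o + a.1 := by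
    rw [hqk]
    push_cast
    rfl
  rw [q1]
  have hcor : j ≠ 0 → τ j ≠ τ (j - 1) → (L : ℤ) ≤
      |(sqQ i n s a (j : ZMod (8 * n))).1 - ((k : ℤ) + s - o + a.1)| := by
    intro h0 h1
    obtain ⟨i', e1, e2⟩ := (corner_iff hn hp hs hu (by omega)).1 h1
    have hi' : i' < 8 := by
      by_contra hcon
      have : 9 * n ≤ (i' + 1) * n := Nat.mul_le_mul_right _ (by omega)
      omega
    have hin : n ≤ (i' + 1) * n := Nat.le_mul_of_pos_left _ (by omega)
    have e3 : sqQ i n s a (j : ZMod (8 * n)) =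
        (n : ℤ) • dP i ((i' + 1 : ℕ) : ZMod 8) + a := by
      rw [sqQ_nat hn, e1, Nat.sub_add_cancel (by omega),
        show (i' + 1) * n = (i' + 1) * n + 0 from rfl, PN_lin hn hn, Nat.cast_zero, zero_smul,
        add_zero]
    have e4 : (dP i ((i' + 1 : ℕ) : ZMod 8)).1 = 0 ∨ (dP i ((i' + 1 : ℕ) : ZMod 8)).1 = 2 := by
      have key : ∀ i : Fin 2, ∀ i' < 8, pdir (dP i) (i' + 1) ≠ pdir (dP i) i' →
          (dP i ((i' + 1 : ℕ) : ZMod 8)).1 = 0 ∨ (dP i ((i' + 1 : ℕ) : ZMod 8)).1 = 2 := by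
        decide
      exact key i i' hi' e2
    rw [e3]
    simp only [Prod.fst_add, Prod.smul_fst, smul_eq_mul]
    rw [le_abs]
    rcases e4 with e4 | e4 <;> rw [e4]
    · right
      omega
    · left
      omega
  rcases hsp with h | h | ⟨h, h'⟩
  · subst h
    rcases two i with rfl | rfl
    · have e : oS 0 = 0 := rfl
      have h3 := sq_south (a := a) (j := 0) (s := s) (i := 0) hn
        (by rw [e]; omega) (by rw [e]; omega)
      rw [h3, ho, e, le_abs]
      right
      simp only [Prod.fst_add]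
      push_cast
      omega
    · have e : oS 1 = 7 := rfl
      have h3 : sqQ 1 n s a ((0 : ℕ) : ZMod (8 * n)) =
          ((n : ℤ) + s, 0) + a := by
        rw [sqQ_nat hn, zero_add, ← PN_add_l hn, south1 hn (by omega) (by omega)]
        congr 1
        refine Prod.ext ?_ rfl
        push_cast
        ring
      rw [h3, ho, e, le_abs]
      left
      simp only [Prod.fst_add]
      push_cast
      omega
  · exact absurd h hjk
  · exact hcor (by omega) h'

end Vale.Agent.P167.H685.LD
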