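import Vale.Agent.P167.H685.LD.Mir
import Vale.Agent.P167.H685.LD.Ext

/-!
# P167, general `q`, block Q-LAM, [LD]: a strip above a flat point of the boundary

`strip_bot`, `strip_top`: an arc around the point, a vertical crossing of the strip and an arc at the
opposite side are joined. `strip_ge`: lower bound of the probability, uniformly in the state outside.
-/

namespace Vale.Agent.P167.H685.LD

open Finset Relation Vale.Agent.P145.FB Vale.Agent.P153 Vale.Agent.P153.Topo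
open Vale.Agent.P167 Vale.Agent.P167.FK Vale.Agent.P167.FKA
open Vale.Agent.P167.H632 (cs pr IncC)
open Vale.Agent.P167.H192 (TA.dq TA.dF TA.mem_dF TA.Pw)
open Vale.Agent.P167.H192.Q (SRSW)
open Vale.Agent.P167.H192.ArcQ (ArcE inc_ArcE arcE_ge pw_pconn)
open Vale.Agent.P167.H704 (Vc inc_Vc)
open Vale.Agent.P167.H704.Q (cst good_cst rs_fk prC_inter prC_mono)

variable {ω : Cfg} {e : Bool} {a : ℤ × ℤ} {r R w p q : ℤ}

/-- the column of half width `w` between the levels `p` and `q` -/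
def Cl (a : ℤ × ℤ) (w p q : ℤ) : Set (ℤ × ℤ) :=
  {v | (a.1 - w ≤ v.1 ∧ v.1 < a.1 + w) ∧ p ≤ v.2 ∧ v.2 < q}

theorem vc_cl (h : ω ∈ Vc e (a.1 - w) (a.1 + w) p q) :
    ∃ s t : ℤ × ℤ, s.2 = p ∧ t.2 = q ∧ (s.1 + s.2) % 2 = pr e ∧
      (a.1 - w ≤ s.1 ∧ s.1 ≤ a.1 + w) ∧ PConn (cs e ω ∩ Cl a w p q) Set.univ s t := by
  obtain ⟨s, t, h1, h2, h3, h4⟩ := h
  have h5 := h4.left_mem
  rw [mem_rect] at h5
  refine ⟨s, t, h1, h2, h3, ⟨h5.1, h5.2.1⟩, ?_⟩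
  obtain ⟨h6, h7⟩ := h4
  clear h2
  induction h7 with
  | refl => exact PConn.refl (Set.mem_univ _)
  | @tail x y hx hxy ih =>
    have hxR := (show PConn (cs e ω) (Rect (a.1 - w) (a.1 + w) p q) s x from ⟨h6, hx⟩).right_mem
    obtain ⟨⟨g1, g2, g3⟩, hyR⟩ := hxy
    rw [mem_rect] at hxR hyR
    refine ih.tail ⟨g1, g2, g3, ?_⟩ (Set.mem_univ _)
    show (a.1 - w ≤ min x.1 y.1 ∧ min x.1 y.1 < a.1 + w) ∧ p ≤ min x.2 y.2 ∧ min x.2 y.2 < q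
    omega

/-- the sites of a path in the half annulus -/
theorem dq_site {F : Set (ℤ × ℤ)} {s z : ℤ × ℤ} (h : PConn (F ∩ TA.dq a r R) Set.univ s z)
    (hs : s.2 = a.2) (hs1 : a.1 - R ≤ s.1) (hs2 : s.1 ≤ a.1 - r) (hr : 0 ≤ r) (hR : 0 ≤ R) :
    (a.1 - R ≤ z.1 ∧ z.1 ≤ a.1 + R ∧ a.2 ≤ z.2 ∧ z.2 ≤ a.2 + R) ∧
      (z.1 ≤ a.1 - r ∨ a.1 + r ≤ z.1 ∨ a.2 + r ≤ z.2) := by
  by_cases hz : s = z
  · subst hz
    omega
  · obtain ⟨v, ⟨-, hv⟩, c1, c2⟩ := end_cor h hz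
    simp only [TA.dq, Set.mem_ofPred_eq] at hv
    omega

/-- **The arc around the point is joined to the upper end of the crossing of the strip.** -/
theorem strip_bot (hw : 1 ≤ w) (hwr : w < r) (hp : a.2 ≤ p) (hpr : p < a.2 + r) (_hrR : r ≤ R)
    (hq : a.2 + R < q) (h1 : ω ∈ ArcE e a r R) (h2 : ω ∈ Vc e (a.1 - w) (a.1 + w) p q) :
    ∃ s t y z : ℤ × ℤ, s.2 = a.2 ∧ t.2 = a.2 ∧ a.1 - R ≤ s.1 ∧ s.1 ≤ a.1 - r ∧ a.1 + r ≤ t.1 ∧
      t.1 ≤ a.1 + R ∧ (s.1 + s.2) % 2 = pr e ∧ PConn (cs e ω ∩ TA.dq a r R) Set.univ s t ∧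
      y.2 = p ∧ (a.1 - w ≤ y.1 ∧ y.1 ≤ a.1 + w) ∧ (y.1 + y.2) % 2 = pr e ∧ z.2 = q ∧
      PConn (cs e ω ∩ Cl a w p q) Set.univ y z ∧
      PConn (cs e ω ∩ (TA.dq a r R ∪ Cl a w p q)) Set.univ s y := by
  obtain ⟨s, t, s1, s2, s3, s4, s5, s6, s7, s8⟩ := arcE_pconn h1
  obtain ⟨y, z, y1, y2, y3, y4, y5⟩ := vc_cl h2
  have hreg : PConn (cs e ω ∩ TA.dq a r R) (Rect (a.1 - R) (a.1 + R) a.2 q) s t := by
    refine pconn_reg s8 (fun v hv z hz => ?_) ?_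
    · obtain ⟨-, hv⟩ := hv
      obtain ⟨c1, c2⟩ := hz
      simp only [TA.dq, Set.mem_ofPred_eq] at hv
      rw [mem_rect]
      omega
    · rw [mem_rect]
      omega
  obtain ⟨x, x1, x2⟩ := conn_arc (e := pr e) (xl := a.1 - w) (xr := a.1 + w) (c := a.2) (d := q)
    y5 (fun v hv => hv.2.1) (by omega) y4 y3 (by omega) (by omega) (by omega) hreg (by omega)
    (by omega) s7 (fun z hz hz1 hz2 => by
      have h3 := dq_site (hz.mono subset_rfl (Set.subset_univ _)) s1 s3 s4 (by omega) (by omega)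
      omega)
  refine ⟨s, t, y, z, s1, s2, s3, s4, s5, s6, s7, s8, y1, y4, y3, y2, y5, ?_⟩
  have g1 : PConn (cs e ω ∩ (TA.dq a r R ∪ Cl a w p q)) Set.univ s x :=
    x2.mono (Set.inter_subset_inter_right _ Set.subset_union_left) (Set.subset_univ _)
  exact g1.trans (x1.symm.mono (Set.inter_subset_inter_right _ Set.subset_union_right) subset_rfl)

/-- **The arc at the opposite side is joined to the lower end of the crossing of the strip.** -/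
theorem strip_top {H : ℤ} (hw : 1 ≤ w) (hwr : w < r) (hq : q ≤ H) (hpr : H - r < q) (hrR : r ≤ R)
    (hp : p < H - R) {y z : ℤ × ℤ} (y1 : y.2 = p) (y4 : a.1 - w ≤ y.1 ∧ y.1 ≤ a.1 + w)
    (y3 : (y.1 + y.2) % 2 = pr e) (y2 : z.2 = q)
    (y5 : PConn (cs e ω ∩ Cl a w p q) Set.univ y z) (h1 : ω ∈ ArcT e (a.1, H) r R) :
    ∃ x : ℤ × ℤ, x.2 = H ∧ a.1 - R ≤ x.1 ∧ x.1 ≤ a.1 + R ∧
      PConn (cs e ω ∩ (Cl a R p H)) Set.univ y x := by
  obtain ⟨s, t, s1, s2, s3, s4, s5, s6, s7, s8⟩ := arcT_pconn h1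
  dsimp only at s1 s2 s3 s4 s5 s6 s8
  have hsite : ∀ x, PConn (cs e ω ∩ {v | (v.1, 2 * H - 1 - v.2) ∈ TA.dq (a.1, H) r R}) Set.univ s x →
      (a.1 - R ≤ x.1 ∧ x.1 ≤ a.1 + R ∧ H - R ≤ x.2 ∧ x.2 ≤ H) ∧
      (x.1 ≤ a.1 - r ∨ a.1 + r ≤ x.1 ∨ x.2 ≤ H - r) := by
    intro x hx
    by_cases hsx : s = x
    · subst hsx
      omega
    · obtain ⟨v, ⟨-, hv⟩, c1, c2⟩ := end_cor hx hsx
      simp only [TA.dq, Set.mem_ofPred_eq] at hv
      omega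
  have hreg : PConn (cs e ω ∩ {v | (v.1, 2 * H - 1 - v.2) ∈ TA.dq (a.1, H) r R})
      (Rect (a.1 - R) (a.1 + R) p H) s t := by
    refine pconn_reg s8 (fun v hv z hz => ?_) ?_
    · obtain ⟨-, hv⟩ := hv
      obtain ⟨c1, c2⟩ := hz
      simp only [TA.dq, Set.mem_ofPred_eq] at hv
      rw [mem_rect]
      omega
    · rw [mem_rect]
      omega
  obtain ⟨x, x1, x2⟩ := conn_arc (e := pr e) (xl := a.1 - w) (xr := a.1 + w) (c := p) (d := H)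
    y5 (fun v hv => hv.2.1) (by omega) y4 y3 (by omega) (by omega) (by omega) hreg (by omega)
    (by omega) s7 (fun z hz hz1 hz2 => by
      have h3 := hsite z (hz.mono subset_rfl (Set.subset_univ _))
      omega)
  refine ⟨s, s1, s3, by omega, ?_⟩
  have hsub : (cs e ω ∩ {v | (v.1, 2 * H - 1 - v.2) ∈ TA.dq (a.1, H) r R}) ⊆
      cs e ω ∩ Cl a R p H := by
    rintro v ⟨hv, hv'⟩
    simp only [TA.dq, Set.mem_ofPred_eq] at hv'
    refine ⟨hv, ?_⟩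
    simp only [Cl, Set.mem_ofPred_eq]
    omega
  have hsub' : (cs e ω ∩ Cl a w p q) ⊆ cs e ω ∩ Cl a R p H := by
    rintro v ⟨hv, hv'⟩
    simp only [Cl, Set.mem_ofPred_eq] at hv'
    refine ⟨hv, ?_⟩
    simp only [Cl, Set.mem_ofPred_eq]
    omega
  exact (x1.mono hsub' subset_rfl).trans (x2.symm.mono hsub (Set.subset_univ _))

end Vale.Agent.P167.H685.LD
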