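import Vale.Agent.P167.H685.LD.Inter

/-!
# P167, general `q`, block Q-LAM, [LD]: flat windows of the boundary, half rings
-/

namespace Vale.Agent.P167.H685.LD

open Finset Relation Vale.Agent.P145.FB
open Vale.Agent.P167 Vale.Agent.P167.BR Vale.Agent.P167.FK
open Vale.Agent.P167.E6 (IsPolygon Encloses)
open Vale.Agent.P167.H632 (cs pr)
open Vale.Agent.P167.H718 (IsXY)
open Vale.Agent.P167.QX (lo hi exists_xy)

/-! ### zigzags -/

theorem zigH {G : Set (ℤ × ℤ)} {x y : ℤ} (m : ℕ) {s : ℤ × ℤ} (h1 : s.1 = x)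
    (h2 : s.2 = y ∨ s.2 = y + 1) (h : ∀ x', x ≤ x' → x' < x + m → (x', y) ∈ G) :
    ∃ t : ℤ × ℤ, t.1 = x + m ∧ (t.2 = y ∨ t.2 = y + 1) ∧ PConn G Set.univ s t := by
  induction m with
  | zero => exact ⟨s, by simp [h1], h2, PConn.refl (Set.mem_univ _)⟩
  | succ m ih =>
    obtain ⟨t, t1, t2, t3⟩ := ih fun x' a b => h x' a (by push_cast; omega)
    have h3 := h (x + m) (by omega) (by push_cast; omega)
    rcases t2 with t2 | t2
    · refine ⟨(t.1 + 1, t.2 + 1), by push_cast; omega, Or.inr (by dsimp only; omega),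
        t3.tail ⟨Or.inl rfl, Or.inl rfl, ?_⟩ (Set.mem_univ _)⟩
      have e : (min t.1 (t.1 + 1), min t.2 (t.2 + 1)) = (x + m, y) := by
        refine Prod.ext ?_ ?_ <;> dsimp only <;> omega
      rw [e]
      exact h3
    · refine ⟨(t.1 + 1, t.2 - 1), by push_cast; omega, Or.inl (by dsimp only; omega),
        t3.tail ⟨Or.inl rfl, Or.inr rfl, ?_⟩ (Set.mem_univ _)⟩
      have e : (min t.1 (t.1 + 1), min t.2 (t.2 - 1)) = (x + m, y) := by
        refine Prod.ext ?_ ?_ <;> dsimp only <;> omega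
      rw [e]
      exact h3

theorem zigV {G : Set (ℤ × ℤ)} {x y : ℤ} (m : ℕ) {s : ℤ × ℤ} (h1 : s.2 = y + m)
    (h2 : s.1 = x ∨ s.1 = x + 1) (h : ∀ y', y ≤ y' → y' < y + m → (x, y') ∈ G) :
    ∃ t : ℤ × ℤ, t.2 = y ∧ (t.1 = x ∨ t.1 = x + 1) ∧ PConn G Set.univ s t := by
  induction m generalizing s with
  | zero => exact ⟨s, by simpa using h1, h2, PConn.refl (Set.mem_univ _)⟩
  | succ m ih =>
    have h3 := h (y + m) (by omega) (by push_cast; omega)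
    push_cast at h1
    rcases h2 with h2 | h2
    · obtain ⟨t, t1, t2, t3⟩ := ih (s := (s.1 + 1, s.2 - 1)) (by dsimp only; omega)
        (Or.inr (by dsimp only; omega)) fun y' a b => h y' a (by push_cast; omega)
      refine ⟨t, t1, t2, ?_⟩
      have h4 : PConn G Set.univ s (s.1 + 1, s.2 - 1) := by
        refine (PConn.refl (Set.mem_univ _)).tail ⟨Or.inl rfl, Or.inr rfl, ?_⟩ (Set.mem_univ _)
        have e : (min s.1 (s.1 + 1), min s.2 (s.2 - 1)) = (x, y + m) := by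
          refine Prod.ext ?_ ?_ <;> dsimp only <;> omega
        rw [e]
        exact h3
      exact h4.trans t3
    · obtain ⟨t, t1, t2, t3⟩ := ih (s := (s.1 - 1, s.2 - 1)) (by dsimp only; omega)
        (Or.inl (by dsimp only; omega)) fun y' a b => h y' a (by push_cast; omega)
      refine ⟨t, t1, t2, ?_⟩
      have h4 : PConn G Set.univ s (s.1 - 1, s.2 - 1) := by
        refine (PConn.refl (Set.mem_univ _)).tail ⟨Or.inr rfl, Or.inr rfl, ?_⟩ (Set.mem_univ _)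
        have e : (min s.1 (s.1 - 1), min s.2 (s.2 - 1)) = (x, y + m) := by
          refine Prod.ext ?_ ?_ <;> dsimp only <;> omega
        rw [e]
        exact h3
      exact h4.trans t3

theorem mem_Bq {v x : ℤ × ℤ} {r : ℤ} : v ∈ Bq x r ↔
    (x.1 - r ≤ v.1 ∧ v.1 < x.1 + r) ∧ x.2 - r ≤ v.2 ∧ v.2 < x.2 + r := by
  unfold Bq
  rw [mem_product, mem_Ico, mem_Ico]

/-- **Escape through the half ring around the box of radius `ρ`.** -/
theorem ring {G : Set (ℤ × ℤ)} {a s v : ℤ × ℤ} {ρ : ℤ} (hρ : 0 ≤ ρ)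
    (hG : ∀ w ∈ Bq a (ρ + 1), w ∉ Bq a ρ → a.2 ≤ w.2 → w ∈ G)
    (hv : v ∈ Bq a (ρ + 1)) (hv' : v ∉ Bq a ρ) (hv2 : a.2 ≤ v.2)
    (h1 : s.1 = v.1 ∨ s.1 = v.1 + 1) (h2 : s.2 = v.2 ∨ s.2 = v.2 + 1) :
    ∃ t : ℤ × ℤ, t.2 = a.2 ∧ ((t.1 = a.1 - ρ - 1 ∨ t.1 = a.1 - ρ) ∨
      (t.1 = a.1 + ρ ∨ t.1 = a.1 + ρ + 1)) ∧ PConn G Set.univ s t := by
  rw [mem_Bq] at hv hv'
  have hcol : ∀ (s' : ℤ × ℤ) (x : ℤ), (x = a.1 - ρ - 1 ∨ x = a.1 + ρ) → (s'.1 = x ∨ s'.1 = x + 1) →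
      a.2 ≤ s'.2 → s'.2 ≤ a.2 + ρ + 1 → ∃ t : ℤ × ℤ, t.2 = a.2 ∧ (t.1 = x ∨ t.1 = x + 1) ∧
        PConn G Set.univ s' t := by
    intro s' x hx hs1 hs2 hs3
    refine zigV (s'.2 - a.2).toNat (by rw [Int.toNat_of_nonneg (by omega)]; ring) hs1
      fun y' b1 b2 => ?_
    rw [Int.toNat_of_nonneg (by omega)] at b2
    refine hG _ (mem_Bq.2 ?_) (fun h => ?_) (by dsimp only; omega)
    · dsimp only
      omega
    · have := mem_Bq.1 h
      dsimp only at this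
      omega
  by_cases c1 : v.1 = a.1 + ρ
  · obtain ⟨t, t1, t2, t3⟩ := hcol s (a.1 + ρ) (Or.inr rfl) (by omega) (by omega) (by omega)
    exact ⟨t, t1, Or.inr t2, t3⟩
  · by_cases c2 : v.1 = a.1 - ρ - 1
    · obtain ⟨t, t1, t2, t3⟩ := hcol s (a.1 - ρ - 1) (Or.inl rfl) (by omega) (by omega) (by omega)
      exact ⟨t, t1, Or.inl (by omega), t3⟩
    · have c3 : v.2 = a.2 + ρ := by omega
      obtain ⟨t, t1, t2, t3⟩ := zigH (G := G) (x := s.1) (y := a.2 + ρ) (a.1 + ρ + 1 - s.1).toNat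
        (s := s) rfl (by omega) fun x' b1 b2 => by
          rw [Int.toNat_of_nonneg (by omega)] at b2
          refine hG _ (mem_Bq.2 ?_) (fun h => ?_) (by dsimp only; omega)
          · dsimp only
            omega
          · have := mem_Bq.1 h
            dsimp only at this
            omega
      rw [Int.toNat_of_nonneg (by omega)] at t1
      obtain ⟨t', t1', t2', t3'⟩ := hcol t (a.1 + ρ) (Or.inr rfl) (by omega) (by omega) (by omega)
      exact ⟨t', t1', Or.inr t2', t3.trans t3'⟩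

/-! ### flat windows of the boundary -/

/-- The boundary is flat around `q k`, the domain is above. -/
structure JW {n : ℕ} (q : ZMod n → ℤ × ℤ) (D : Finset (ℤ × ℤ)) (k : ℕ) (R : ℤ) : Prop where
  pos : 1 ≤ R
  lt : R < k
  gt : k + R < n
  idx : ∀ j : ℕ, (k : ℤ) - R ≤ j → (j : ℤ) ≤ k + R →
    q (j : ZMod n) = ((q (k : ZMod n)).1 + (j - k), (q (k : ZMod n)).2)
  dom : ∀ v : ℤ × ℤ, nm (v - q (k : ZMod n)) ≤ R → (v ∈ D ↔ (q (k : ZMod n)).2 ≤ v.2)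

variable {n k : ℕ} {q : ZMod n → ℤ × ℤ} {D : Finset (ℤ × ℤ)} {R : ℤ}

theorem nm_le {v : ℤ × ℤ} {r : ℤ} : nm v ≤ r ↔ (-r ≤ v.1 ∧ v.1 ≤ r) ∧ -r ≤ v.2 ∧ v.2 ≤ r := by
  unfold nm
  rw [max_le_iff, abs_le, abs_le]

/-- The index of a site of the line. -/
theorem JW.site (hW : JW q D k R) {t : ℤ × ℤ} (h2 : t.2 = (q (k : ZMod n)).2)
    (h1 : |t.1 - (q (k : ZMod n)).1| ≤ R) : ∃ j : ℕ, (j : ℤ) = k + (t.1 - (q (k : ZMod n)).1) ∧
      q (j : ZMod n) = t ∧ j < n := by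
  rw [abs_le] at h1
  have := hW.lt
  have := hW.gt
  refine ⟨(k + (t.1 - (q (k : ZMod n)).1)).toNat, by rw [Int.toNat_of_nonneg (by omega)], ?_,
    by omega⟩
  rw [hW.idx _ (by rw [Int.toNat_of_nonneg (by omega)]; omega)
    (by rw [Int.toNat_of_nonneg (by omega)]; omega), Int.toNat_of_nonneg (by omega)]
  refine Prod.ext ?_ ?_ <;> dsimp only <;> omega

end Vale.Agent.P167.H685.LD
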